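import Vale.Agent.P284Y.Gen.G1
import Mathlib.Analysis.SpecialFunctions.ImproperIntegrals

/-!
# P284Y, block Gen: the energy
-/

set_option linter.all false

open scoped ContDiff Topology ComplexOrder ENNReal Matrix
open Filter Set Function Metric MeasureTheory Real Asymptotics

noncomputable section

namespace Vale.Agent.P284Y.GN

open Vale.Agent.P272.K Vale.Agent.P284Z

variable {N : ℕ} {M : Type} [TopologicalSpace M] [T2Space M] [MeasurableSpace M] [BorelSpace M]
  {Q : Pat N M} {μ : Measure M} (S : MAS Q μ) (hP : PG Q μ) {ν ν' p p' : M → ℝ}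

include hP

theorem G_mono (hν : Q.Dens ν) (hν' : Q.Dens ν') (h : ν ≤ ν') : S.G ν ≤ S.G ν' := by
  have h1 := hP.dens_sub ν ν' hν hν' h
  have h2 := (S.two ν _ hν h1).1
  rw [add_sub_cancel] at h2
  have h3 : 0 ≤ ∫ y, exp (S.φ ν' y) * (ν' - ν) y ∂μ := ms_nonneg S ν' h1
  linarith

theorem G_nonneg (hν : Q.Dens ν) : 0 ≤ S.G ν :=
  S.G0 ▸ G_mono S hP hP.dens_zero hν fun y => hν.nonneg y

theorem G_le (hν : Q.Dens ν) (hν' : Q.Dens ν') (hp : Q.Dens p) (h : ν' ≤ ν + p) :
    S.G ν' ≤ S.G ν + S.ms ν p := by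
  have h1 := G_mono S hP hν' (hP.dens_add _ _ hν hp) h
  have h2 : S.G (ν + p) - S.G ν ≤ S.ms ν p := (S.two ν p hν hp).2
  linarith

theorem ray_mono (hp : Q.Dens p) {l l' : ℝ} (h : l ≤ l') : ν + exp l • p ≤ ν + exp l' • p :=
  fun y => add_le_add le_rfl (mul_le_mul_of_nonneg_right (exp_le_exp.2 h) (hp.nonneg y))

theorem φ_ray (hν : Q.Dens ν) (hp : Q.Dens p) {l l' : ℝ} (h : l ≤ l') (y : M) :
    S.φ (ν + exp l • p) y - (l' - l) ≤ S.φ (ν + exp l' • p) y := by
  refine cmp S hP (dens_ray hP hν hp l) (dens_ray hP hν hp l') (sub_nonneg.2 h) (fun y => ?_) y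
  have h1 : 1 ≤ exp (l' - l) := one_le_exp (sub_nonneg.2 h)
  have h2 : exp (l' - l) * exp l = exp l' := by rw [← exp_add, sub_add_cancel]
  have h3 := hν.nonneg y
  show 1 + (ν y + exp l' * p y) ≤ exp (l' - l) * (1 + (ν y + exp l * p y))
  rw [← h2]
  nlinarith

theorem φ_lip (hν : Q.Dens ν) (hp : Q.Dens p) (l l' : ℝ) (y : M) :
    S.φ (ν + exp l • p) y ≤ S.φ (ν + exp l' • p) y + |l - l'| := by
  rcases le_total l l' with h | h
  · rw [abs_sub_comm, abs_of_nonneg (sub_nonneg.2 h)]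
    linarith [φ_ray S hP hν hp h y]
  · exact (mono S hP (dens_ray hP hν hp l') (dens_ray hP hν hp l) (ray_mono hP hp h) y).trans
      (le_add_of_nonneg_right (abs_nonneg _))

theorem cont₂ (hν : Q.Dens ν) (hp : Q.Dens p) :
    Continuous fun q : ℝ × M => S.φ (ν + exp q.1 • p) q.2 := by
  refine continuous_iff_continuousAt.2 fun q₀ => ?_
  have h1 := cont S hP (dens_ray hP hν hp q₀.1)
  have h2 : Continuous fun q : ℝ × M => S.φ (ν + exp q₀.1 • p) q.2 - |q₀.1 - q.1| := by fun_prop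
  have h3 : Continuous fun q : ℝ × M => S.φ (ν + exp q₀.1 • p) q.2 + |q.1 - q₀.1| := by fun_prop
  refine tendsto_of_tendsto_of_tendsto_of_le_of_le (by simpa using h2.tendsto q₀)
    (by simpa using h3.tendsto q₀) (fun q => ?_) fun q => φ_lip S hP hν hp _ _ _
  exact sub_le_iff_le_add.2 (φ_lip S hP hν hp _ _ _)

theorem m_cont (hν : Q.Dens ν) (hp : Q.Dens p) : Continuous fun l => S.ms (ν + exp l • p) p := by
  refine continuous_iff_continuousAt.2 fun l₀ => ?_
  have h2 : Continuous fun l : ℝ => exp (-|l₀ - l|) * S.ms (ν + exp l₀ • p) p := by fun_prop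
  have h3 : Continuous fun l : ℝ => exp |l - l₀| * S.ms (ν + exp l₀ • p) p := by fun_prop
  refine tendsto_of_tendsto_of_tendsto_of_le_of_le (by simpa using h2.tendsto l₀)
    (by simpa using h3.tendsto l₀) (fun l => ?_) fun l =>
      ms_le_ms S hP (dens_ray hP hν hp _) (dens_ray hP hν hp _) hp (φ_lip S hP hν hp _ _)
  show exp (-|l₀ - l|) * _ ≤ _
  rw [exp_neg, inv_mul_le_iff₀ (exp_pos _)]
  exact ms_le_ms S hP (dens_ray hP hν hp _) (dens_ray hP hν hp _) hp (φ_lip S hP hν hp _ _)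

omit hP in
theorem msl_eq (ν p : M → ℝ) (l : ℝ) : S.msl ν p l = exp l * S.ms (ν + exp l • p) p :=
  ms_smul S _ _ _

theorem msl_cont (hν : Q.Dens ν) (hp : Q.Dens p) : Continuous (S.msl ν p) := by
  rw [funext (msl_eq S ν p)]
  exact continuous_exp.mul (m_cont S hP hν hp)

theorem msl_mono (hν : Q.Dens ν) (hp : Q.Dens p) : Monotone (S.msl ν p) := by
  intro l l' h
  have h1 := ms_le_ms S hP (dens_ray hP hν hp l) (dens_ray hP hν hp l') hp (b := l' - l)
    fun y => sub_le_iff_le_add.1 (φ_ray S hP hν hp h y)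
  rw [msl_eq, msl_eq]
  refine (mul_le_mul_of_nonneg_left h1 (exp_pos _).le).trans_eq ?_
  rw [← mul_assoc, ← exp_add, add_sub_cancel]

theorem msl_nonneg (ν : M → ℝ) (hp : Q.Dens p) (l : ℝ) : 0 ≤ S.msl ν p l :=
  ms_nonneg S _ (hP.dens_smul _ _ (exp_pos l).le hp)

theorem msl_le (hν : Q.Dens ν) (hp : Q.Dens p) (l : ℝ) : S.msl ν p l ≤ exp l * ∫ y, p y ∂μ := by
  have h1 := ms_le S hP (dens_ray hP hν hp l) hp (b := 0)
    fun y _ => S.nonpos _ (dens_ray hP hν hp l) y
  rw [exp_zero, one_mul] at h1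
  rw [msl_eq]
  exact mul_le_mul_of_nonneg_left h1 (exp_pos _).le

theorem G_ray (hν : Q.Dens ν) (hp : Q.Dens p) {l l' : ℝ} (h : l ≤ l') :
    (exp l' - exp l) * S.ms (ν + exp l' • p) p ≤ S.G (ν + exp l' • p) - S.G (ν + exp l • p) ∧
    S.G (ν + exp l' • p) - S.G (ν + exp l • p) ≤ (exp l' - exp l) * S.ms (ν + exp l • p) p := by
  have h1 := S.two _ _ (dens_ray hP hν hp l)
    (hP.dens_smul (exp l' - exp l) p (sub_nonneg.2 (exp_le_exp.2 h)) hp)
  rw [add_assoc, ← add_smul, add_sub_cancel] at h1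
  rw [← ms_smul, ← ms_smul]
  exact h1

theorem deriv' (hν : Q.Dens ν) (hp : Q.Dens p) (l₀ : ℝ) :
    HasDerivAt (fun l => S.G (ν + exp l • p)) (S.msl ν p l₀) l₀ := by
  set F : ℝ → ℝ := fun l => S.G (ν + exp l • p) with hF
  set m : ℝ → ℝ := fun l => S.ms (ν + exp l • p) p with hm
  have hb : ∀ l, ‖F l - F l₀ - (exp l - exp l₀) * m l₀‖ ≤ ‖(m l - m l₀) * (exp l - exp l₀)‖ := by
    intro l
    rw [Real.norm_eq_abs, Real.norm_eq_abs, abs_le]
    have h0 := le_abs_self ((m l - m l₀) * (exp l - exp l₀))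
    have h0' := neg_abs_le ((m l - m l₀) * (exp l - exp l₀))
    have h0'' := abs_nonneg ((m l - m l₀) * (exp l - exp l₀))
    rcases le_total l l₀ with h | h
    · obtain ⟨h1, h2⟩ := G_ray S hP hν hp h
      constructor <;> nlinarith
    · obtain ⟨h1, h2⟩ := G_ray S hP hν hp h
      constructor <;> nlinarith
  have h1 : (fun l => m l - m l₀) =o[𝓝 l₀] fun _ => (1 : ℝ) :=
    (isLittleO_one_iff ℝ).2 (tendsto_sub_nhds_zero_iff.2 ((m_cont S hP hν hp).tendsto l₀))
  have h2 : (fun l => exp l - exp l₀) =O[𝓝 l₀] fun l => l - l₀ := (hasDerivAt_exp l₀).isBigO_sub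
  have h3 : HasDerivAt (fun l => F l - F l₀ - (exp l - exp l₀) * m l₀) 0 l₀ := by
    rw [hasDerivAt_iff_isLittleO]
    have h4 := (IsBigO.of_bound' (Eventually.of_forall hb)).trans_isLittleO (h1.mul_isBigO h2)
    simpa using h4
  have h4 := (h3.add (((hasDerivAt_exp l₀).sub_const (exp l₀)).mul_const (m l₀))).add_const (F l₀)
  rw [msl_eq]
  refine (h4.congr_deriv (zero_add _)).congr_of_eventuallyEq (Eventually.of_forall fun l => ?_)
  simp

theorem cmpI {a b α β κ δ e : ℝ} (hν : Q.Dens ν) (hp : Q.Dens p) (hν' : Q.Dens ν')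
    (hp' : Q.Dens p') (hab : a ≤ b)
    (h : ∀ lam ∈ Icc a b, α * S.msl ν p lam ≤ β * κ * S.msl ν' p' (κ * lam + δ) + e) :
    α * (S.G (ν + exp b • p) - S.G (ν + exp a • p)) ≤
      β * (S.G (ν' + exp (κ * b + δ) • p') - S.G (ν' + exp (κ * a + δ) • p')) + e * (b - a) := by
  have hd : ∀ l, HasDerivAt (fun l => β * S.G (ν' + exp (κ * l + δ) • p') + e * l -
      α * S.G (ν + exp l • p)) (β * (S.msl ν' p' (κ * l + δ) * κ) + e - α * S.msl ν p l) l := by
    intro l
    have h1 : HasDerivAt (fun l => κ * l + δ) κ l := by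
      simpa using ((hasDerivAt_id l).const_mul κ).add_const δ
    have h2 : HasDerivAt (fun l => e * l) e l := by simpa using (hasDerivAt_id l).const_mul e
    exact ((((deriv' S hP hν' hp' (κ * l + δ)).comp l h1).const_mul β).add h2).sub
      ((deriv' S hP hν hp l).const_mul α)
  have h1 := monotoneOn_of_deriv_nonneg (convex_Icc a b)
    (fun l _ => (hd l).continuousAt.continuousWithinAt)
    (fun l _ => (hd l).differentiableAt.differentiableWithinAt) (fun l hl => by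
      rw [(hd l).deriv]
      have := h l (interior_subset hl)
      linarith) (left_mem_Icc.2 hab) (right_mem_Icc.2 hab) hab
  simp only at h1
  linarith

theorem G_bot (hν : Q.Dens ν) (hp : Q.Dens p) :
    Tendsto (fun l => S.G (ν + exp l • p)) atBot (𝓝 (S.G ν)) := by
  have h1 : Tendsto (fun l => S.G ν + exp l * S.ms ν p) atBot (𝓝 (S.G ν)) := by
    simpa using (tendsto_exp_atBot.mul_const (S.ms ν p)).const_add (S.G ν)
  refine tendsto_of_tendsto_of_tendsto_of_le_of_le tendsto_const_nhds h1 (fun l => ?_) fun l => ?_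
  · exact G_mono S hP hν (dens_ray hP hν hp l) fun y =>
      le_add_of_nonneg_right (mul_nonneg (exp_pos l).le (hp.nonneg y))
  · show _ ≤ S.G ν + exp l * S.ms ν p
    rw [← ms_smul]
    exact G_le S hP hν (dens_ray hP hν hp l) (hP.dens_smul _ _ (exp_pos l).le hp) le_rfl

theorem sub {ν₁ ν₂ : M → ℝ} (h₁ : Q.Dens ν₁) (h₂ : Q.Dens ν₂) (hν' : Q.Dens ν') (h : ν₁ ≤ ν₂) :
    S.I ν' ν₂ ≤ S.I ν' ν₁ := by
  refine le_of_tendsto_of_tendsto ((G_bot S hP h₂ hν').const_sub (S.G (ν₂ + ν')))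
    ((G_bot S hP h₁ hν').const_sub (S.G (ν₁ + ν'))) ?_
  filter_upwards [eventually_le_atBot (0 : ℝ)] with a ha
  have h1 := cmpI S hP (α := 1) (β := 1) (κ := 1) (δ := 0) (e := 0) h₂ hν' h₁ hν' ha
    fun l _ => by
      simp only [one_mul, add_zero]
      have h2 := hP.dens_smul _ _ (exp_pos l).le hν'
      exact ms_mono S hP (dens_ray hP h₂ hν' l) (dens_ray hP h₁ hν' l) h2 h2
        (add_le_add h le_rfl) le_rfl
  simpa using h1

/-! ### the defect -/

theorem deriv_neg (hν : Q.Dens ν) (l : ℝ) :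
    HasDerivAt (fun l => -S.G (exp (-l) • ν)) (S.msl 0 ν (-l)) l := by
  have h := ((deriv' S hP hP.dens_zero hν (-l)).comp l (hasDerivAt_neg l)).neg
  simp only [mul_neg, mul_one, neg_neg] at h
  refine h.congr_of_eventuallyEq (Eventually.of_forall fun l => ?_)
  simp

theorem df_cont (hν : Q.Dens ν) :
    Continuous fun q : ℝ × M => 1 - exp (S.φ (exp (-q.1) • ν) q.2) := by
  have h := (cont₂ S hP hP.dens_zero hν).comp
    (show Continuous fun q : ℝ × M => (-q.1, q.2) by fun_prop)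
  simp only [zero_add] at h
  exact continuous_const.sub h.rexp

theorem df_nonneg (hν : Q.Dens ν) (l : ℝ) (y : M) : 0 ≤ 1 - exp (S.φ (exp (-l) • ν) y) :=
  sub_nonneg.2 (exp_le_one_iff.2 (S.nonpos _ (hP.dens_smul _ _ (exp_pos _).le hν) y))

omit hP in
theorem swap_aux [SigmaFinite μ] {f : ℝ → M → ℝ} {g : ℝ → ℝ} {T : Set ℝ}
    (hc : Continuous (uncurry f)) (h0 : ∀ l y, 0 ≤ f l y) (hi : ∀ l, Integrable (f l) μ)
    (h1 : ∀ l, ∫ y, f l y ∂μ = g l) (hT : IntegrableOn g T) :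
    Integrable (fun y => ∫ l in T, f l y) μ ∧ ∫ y, (∫ l in T, f l y) ∂μ = ∫ l in T, g l := by
  have h2 : Integrable (uncurry f) ((volume.restrict T).prod μ) := by
    refine (integrable_prod_iff hc.aestronglyMeasurable).2 ⟨Eventually.of_forall hi, ?_⟩
    refine hT.congr (Eventually.of_forall fun l => ?_)
    show _ = ∫ y, ‖f l y‖ ∂μ
    simp only [Real.norm_of_nonneg (h0 l _), h1]
  refine ⟨h2.integral_prod_right, ?_⟩
  rw [← integral_integral_swap h2]
  simp only [h1]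

theorem df_set (hν : Q.Dens ν) {T : Set ℝ} (hT : IntegrableOn (fun l => S.msl 0 ν (-l)) T) :
    Integrable (fun y => ∫ l in T, (1 - exp (S.φ (exp (-l) • ν) y))) μ ∧
    ∫ y, (∫ l in T, (1 - exp (S.φ (exp (-l) • ν) y))) ∂μ = ∫ l in T, S.msl 0 ν (-l) := by
  haveI := hP.sf
  refine swap_aux (f := fun l y => 1 - exp (S.φ (exp (-l) • ν) y)) (df_cont S hP hν)
    (df_nonneg S hP hν) (fun l => (S.mi _ (hP.dens_smul _ _ (exp_pos _).le hν)).1) (fun l => ?_) hT
  rw [MAS.msl, zero_add]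
  exact (S.mi _ (hP.dens_smul _ _ (exp_pos _).le hν)).2

theorem df {a b : ℝ} (hν : Q.Dens ν) (hab : a ≤ b) :
    Integrable (fun y => ∫ l in a..b, (1 - exp (S.φ (exp (-l) • ν) y))) μ ∧
    ∫ y, (∫ l in a..b, (1 - exp (S.φ (exp (-l) • ν) y))) ∂μ =
      S.G (exp (-a) • ν) - S.G (exp (-b) • ν) := by
  have h0 : IntervalIntegrable (fun l => S.msl 0 ν (-l)) volume a b :=
    ((msl_cont S hP hP.dens_zero hν).comp continuous_neg).intervalIntegrable a b
  obtain ⟨h1, h2⟩ := df_set S hP hν h0.1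
  simp only [intervalIntegral.integral_of_le hab]
  refine ⟨h1, ?_⟩
  rw [h2, ← intervalIntegral.integral_of_le hab,
    intervalIntegral.integral_eq_sub_of_hasDerivAt (fun l _ => deriv_neg S hP hν l) h0]
  ring

theorem dd_ray (hν : Q.Dens ν) (y : M) :
    IntegrableOn (fun l => 1 - exp (S.φ (exp (-l) • ν) y)) (Ioi 0) := by
  obtain ⟨A, hA0, hA⟩ := dens_bdd hP hν
  refine ((integrableOn_exp_neg_Ioi 0).mul_const A).mono'
    ((df_cont S hP hν).comp (Continuous.prodMk_left y)).aestronglyMeasurable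
    (Eventually.of_forall fun l => ?_)
  rw [Real.norm_of_nonneg (df_nonneg S hP hν l y)]
  have h0 : 0 ≤ exp (-l) * A := by positivity
  have h1 := low S hP (hP.dens_smul _ _ (exp_pos (-l)).le hν) (A := exp (-l) * A)
    (fun y => mul_le_mul_of_nonneg_left (hA y) (exp_pos _).le) y
  have h2 := log_le_sub_one_of_pos (show 0 < 1 + exp (-l) * A by linarith)
  have h3 := add_one_le_exp (S.φ (exp (-l) • ν) y)
  linarith

theorem dd (hν : Q.Dens ν) :
    Integrable (S.DD ν) μ ∧ (∀ y, 0 ≤ S.DD ν y) ∧ ∫ y, S.DD ν y ∂μ = S.G ν := by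
  have h0 : IntegrableOn (fun l => S.msl 0 ν (-l)) (Ioi 0) :=
    ((integrableOn_exp_neg_Ioi 0).mul_const (∫ y, ν y ∂μ)).mono'
      ((msl_cont S hP hP.dens_zero hν).comp continuous_neg).aestronglyMeasurable
      (Eventually.of_forall fun l => by
        rw [Real.norm_of_nonneg (msl_nonneg S hP _ hν _)]
        exact msl_le S hP hP.dens_zero hν _)
  obtain ⟨h1, h2⟩ := df_set S hP hν h0
  refine ⟨h1, fun y => integral_nonneg fun l => df_nonneg S hP hν l y, h2.trans ?_⟩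
  have h3 := ((G_bot S hP hP.dens_zero hν).comp tendsto_neg_atTop_atBot).neg
  rw [S.G0, neg_zero] at h3
  rw [integral_Ioi_of_hasDerivAt_of_tendsto' (fun l _ => deriv_neg S hP hν l) h0
    (m := 0) (by simpa [Function.comp_def] using h3)]
  simp

theorem dd_mono (hν : Q.Dens ν) (hν' : Q.Dens ν') (h : ν ≤ ν') (y : M) : S.DD ν y ≤ S.DD ν' y :=
  integral_mono (dd_ray S hP hν y) (dd_ray S hP hν' y) fun l =>
    sub_le_sub_left (exp_le_exp.2 (mono S hP (hP.dens_smul _ _ (exp_pos _).le hν)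
      (hP.dens_smul _ _ (exp_pos _).le hν')
      (fun y => mul_le_mul_of_nonneg_left (h y) (exp_pos _).le) y)) _

theorem aut_G (g : M ≃ₜ M) (hg : Q.Aut g) (hν : Q.Dens ν) : S.G (ν ∘ g) = S.G ν := by
  obtain ⟨h0, -, -, -, h4⟩ := hP.aut g hg
  rw [← (dd S hP hν).2.2, ← (dd S hP (h4 ν hν)).2.2,
    ← h0.integral_comp g.measurableEmbedding (S.DD ν)]
  refine integral_congr_ae (Eventually.of_forall fun y => ?_)
  refine integral_congr_ae (Eventually.of_forall fun l => ?_)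
  have h5 := congrFun (aut_φ S hP g hg (hP.dens_smul _ _ (exp_pos (-l)).le hν)) y
  exact congrArg (fun t => 1 - exp t) h5

end GN

open GN

/-- **Gen** -/
theorem stGen : StGen := fun N M _ _ _ _ Q μ S hP =>
  { pg := hP
    cont := fun _ hν => cont S hP hν
    sp := fun ν hν y _ => ⟨S.sm ν hν y, psd S hν y⟩
    ma := fun _ hν => ma S hP hν
    vc := fun _ _ _ hν => vc S hP hν
    zero := zero S hP
    cmp := fun _ _ _ hν => cmp S hP hν
    mono := fun _ _ hν => mono S hP hν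
    low := fun _ _ hν => low S hP hν
    aut := fun g hg _ hν => ⟨aut_φ S hP g hg hν, aut_G S hP g hg hν⟩
    ms_nonneg := fun ν _ hp => ms_nonneg S ν hp
    ms_lint := fun _ _ => ms_lint S hP
    ms_add := fun _ _ _ => ms_add S hP
    ms_smul := ms_smul S
    ms_mono := fun _ _ _ _ => ms_mono S hP
    ms_le := fun _ _ _ => ms_le S hP
    vneg := fun _ => vneg S hP
    mt := fun _ _ _ _ _ _ _ _ _ => GN.mt S hP
    mup := fun _ _ _ _ _ _ => mup S hP
    G_mono := fun _ _ => G_mono S hP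
    G_nonneg := fun _ => G_nonneg S hP
    G_le := fun _ _ _ => G_le S hP
    sub := fun _ _ _ => GN.sub S hP
    msl_cont := fun _ _ => msl_cont S hP
    msl_mono := fun _ _ => msl_mono S hP
    msl_le := fun _ _ l hν hp => msl_le S hP hν hp l
    deriv := fun _ _ l hν hp => deriv' S hP hν hp l
    cmpI := fun _ _ _ _ _ _ _ _ _ _ _ => cmpI S hP
    cont₂ := fun _ _ => cont₂ S hP
    df := fun _ _ _ => df S hP
    dd_ray := fun _ y hν => dd_ray S hP hν y
    dd := fun _ => dd S hP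
    dd_mono := fun _ _ => dd_mono S hP }

end Vale.Agent.P284Y
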