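import Vale.Agent.P284Y.Gen.PG1

/-!
# P284Y: calculus in the patches, densities and integrals
-/

set_option linter.all false

open scoped ContDiff Topology ComplexOrder Matrix
open Filter Set Function Metric MeasureTheory

noncomputable section

namespace Vale.Agent.P284Y

open Vale.Agent.P272.K Vale.Agent.P284Z Vale.Agent.P284Z.J

namespace PGa

variable {N : ℕ} {M : Type} {Q : Pat N M} [TopologicalSpace M]

theorem dens_zero : Q.Dens 0 :=
  ⟨fun _ _ _ _ _ => contDiffAt_const, fun _ => le_rfl, HasCompactSupport.zero⟩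

theorem dens_add {ν ν' : M → ℝ} (h : Q.Dens ν) (h' : Q.Dens ν') : Q.Dens (ν + ν') :=
  ⟨fun y i z hz e => (h.sm y i z hz e).add (h'.sm y i z hz e),
    fun y => add_nonneg (h.nonneg y) (h'.nonneg y), h.cpt.add h'.cpt⟩

theorem dens_smul {c : ℝ} {ν : M → ℝ} (hc : 0 ≤ c) (h : Q.Dens ν) : Q.Dens (c • ν) :=
  ⟨fun y i z hz e => contDiffAt_const.mul (h.sm y i z hz e),
    fun y => mul_nonneg hc (h.nonneg y), h.cpt.comp_left (g := fun x => c * x) (mul_zero c)⟩

theorem dens_sub {ν ν' : M → ℝ} (h : Q.Dens ν) (h' : Q.Dens ν') (hl : ν ≤ ν') : Q.Dens (ν' - ν) :=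
  ⟨fun y i z hz e => (h'.sm y i z hz e).sub (h.sm y i z hz e),
    fun y => sub_nonneg.2 (hl y), h'.cpt.comp₂_left (m := fun a b : ℝ => a - b) h.cpt (sub_zero 0)⟩

theorem dens_sum {J : Type} (s : Finset J) {ν : J → M → ℝ} (h : ∀ j ∈ s, Q.Dens (ν j)) :
    Q.Dens (∑ j ∈ s, ν j) :=
  Finset.sum_induction _ _ (fun _ _ => dens_add) dens_zero h

omit [TopologicalSpace M] in
theorem push_out (i) (k : Cm N → ℝ) {y} (hy : y ∉ Q.pt i '' Q.U i) : Q.push i k y = 0 :=
  Function.extend_apply' _ _ _ fun ⟨z, e⟩ => hy ⟨z, z.2, e⟩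

theorem aff_cont (c : Cm N) (A : Mx N) : Continuous fun u : Cm N => c + A *ᵥ u :=
  continuous_const.add (sm_mulVec A).continuous

theorem mv_ne {c : Cm N} {A : Mx N} {k : Cm N → ℝ} (hA : A.det ≠ 0) {z} (h : mv c A k z ≠ 0) :
    ∃ u, k u ≠ 0 ∧ z = c + A *ᵥ u :=
  ⟨_, fun e => h (by rw [mv, e, zero_div]), (aff_inv hA z).symm⟩

section ok
variable (h : Q.Ok)
include h

theorem nhds_img (i) {z} (hz : z ∈ Q.U i) {V} (hV : V ∈ 𝓝 z) : Q.pt i '' V ∈ 𝓝 (Q.pt i z) :=
  map_pt h i hz ▸ image_mem_map hV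

theorem open_img (i) {V} (hV : IsOpen V) (hs : V ⊆ Q.U i) : IsOpen (Q.pt i '' V) :=
  isOpen_iff_mem_nhds.2 fun _ ⟨z, hz, e⟩ => e ▸ nhds_img h i (hs hz) (hV.mem_nhds hz)

theorem contOn (i) : ContinuousOn (Q.pt i) (Q.U i) := fun z hz =>
  (cont_pt h i hz).continuousWithinAt

theorem lc : LocallyCompactSpace M := ⟨fun y n hn => by
  obtain ⟨i, z, hz, rfl⟩ := h.cover y
  obtain ⟨K, h1, h2, h3⟩ := local_compact_nhds
    (inter_mem ((h.opn i).mem_nhds hz) ((cont_pt h i hz).preimage_mem_nhds hn))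
  exact ⟨_, nhds_img h i hz h1, image_subset_iff.2 fun w hw => (h2 hw).2,
    h3.image_of_continuousOn ((contOn h i).mono fun w hw => (h2 hw).1)⟩⟩

theorem sc : SecondCountableTopology M := by
  haveI := h.cnt
  haveI : ∀ i, SecondCountableTopology (range ((Q.U i).domRestrict (Q.pt i))) := fun i =>
    (h.emb i).isEmbedding.toHomeomorph.symm.secondCountableTopology
  refine TopologicalSpace.secondCountableTopology_of_countable_cover
    (fun i => (h.emb i).isOpen_range) (eq_univ_of_forall fun y => ?_)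
  obtain ⟨i, z, hz, rfl⟩ := h.cover y
  exact mem_iUnion.2 ⟨i, ⟨z, hz⟩, rfl⟩

theorem push_pt (i) (k : Cm N → ℝ) {z} (hz : z ∈ Q.U i) :
    Q.push i k (Q.pt i z) = k z / Q.vol i z :=
  (h.emb i).injective.extend_apply _ _ ⟨z, hz⟩

theorem push_ne {i} {k : Cm N → ℝ} {y} (hy : Q.push i k y ≠ 0) :
    ∃ z ∈ Q.U i, k z ≠ 0 ∧ y = Q.pt i z := by
  by_cases h1 : y ∈ Q.pt i '' Q.U i
  · obtain ⟨z, hz, rfl⟩ := h1
    exact ⟨z, hz, fun e => hy (by rw [push_pt h i k hz, e, zero_div]), rfl⟩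
  · exact absurd (push_out i k h1) hy

theorem push_dens [T2Space M] (i) {k : Cm N → ℝ} {K : Set (Cm N)} (hK : IsCompact K)
    (hs : K ⊆ Q.U i) (hk : ContDiff ℝ ∞ k) (h0 : ∀ z, 0 ≤ k z) (h1 : ∀ z ∉ K, k z = 0) :
    Q.Dens (Q.push i k) := by
  have hc := hK.image_of_continuousOn ((contOn h i).mono hs)
  have hz : ∀ y ∉ Q.pt i '' K, Q.push i k y = 0 := fun y hy => by
    by_contra hn
    obtain ⟨z, -, h2, rfl⟩ := push_ne h hn
    exact hy ⟨z, not_not.1 fun h3 => h2 (h1 z h3), rfl⟩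
  refine ⟨fun y => ?_, fun y => ?_, HasCompactSupport.intro hc hz⟩
  · by_cases hy : y ∈ Q.pt i '' K
    · obtain ⟨z, hz, rfl⟩ := hy
      refine sm_of h _ i (hs hz) ((hk.contDiffAt.div (vol_sm h i (hs hz))
        (vol_pos h i (hs hz)).ne').congr_of_eventuallyEq ?_)
      filter_upwards [(h.opn i).mem_nhds (hs hz)] with w hw using push_pt h i k hw
    · refine sm_congr h (g := 0) ?_ fun _ _ _ _ => contDiffAt_const
      filter_upwards [hc.isClosed.isOpen_compl.mem_nhds hy] with w hw using hz w hw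
  · by_cases hy : Q.push i k y = 0
    · exact hy.ge
    · obtain ⟨z, hz, -, rfl⟩ := push_ne h hy
      rw [push_pt h i k hz]
      exact div_nonneg (h0 z) (vol_pos h i hz).le

theorem pm_dens [T2Space M] {i c A k} (hk : Ker k) (hi : Q.In i c A) : Q.Dens (Q.pm i c A k) := by
  refine push_dens h i ((isCompact_closedBall (0 : Cm N) 1).image (aff_cont c A)) ?_ (mv_sm hk.1)
    (fun z => div_nonneg (hk.2.1 _) (sq_nonneg _)) fun z hz => ?_
  · rintro _ ⟨u, hu, rfl⟩
    exact hi.2 u (mem_closedBall_zero_iff.1 hu)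
  · by_contra hn
    obtain ⟨u, hu, rfl⟩ := mv_ne hi.1 hn
    exact hz ⟨u, mem_closedBall_zero_iff.2 (hk.2.2 u hu), rfl⟩

theorem pm_ne {i c A k y} (hi : Q.In i c A) (hy : Q.pm i c A k y ≠ 0) :
    ∃ u, k u ≠ 0 ∧ y = Q.pt i (c + A *ᵥ u) := by
  obtain ⟨z, -, h2, rfl⟩ := push_ne h hy
  obtain ⟨u, hu, rfl⟩ := mv_ne hi.1 h2
  exact ⟨u, hu, rfl⟩

theorem pm_pt {i c A} (k) {u} (hi : Q.In i c A) (hu : c + A *ᵥ u ∈ Q.U i) :
    Q.pm i c A k (Q.pt i (c + A *ᵥ u)) = k u / (‖A.det‖ ^ 2 * Q.vol i (c + A *ᵥ u)) := by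
  rw [Pat.pm, push_pt h i _ hu, mv_at k u hi.1, div_div]

theorem dens_cont {ν : M → ℝ} (hν : Q.Dens ν) : Continuous ν :=
  continuous_iff_continuousAt.2 fun y => cont h (hν.sm y)

theorem aut_sm {g : M → M} (hg : Q.Aut g) {f : M → ℝ} {y} (hf : Q.SmAt f (g y)) :
    Q.SmAt (f ∘ g) y := by
  rintro i z hz rfl
  obtain ⟨j, z', hz', e⟩ := h.cover (g (Q.pt i z))
  exact (trf hg.2 (i := i) hz hz' e.symm (ρ2 h j hz')).choose_spec.1 _ f (hf j z' hz' e)

theorem aut_psd {g : M → M} (hg : Q.Aut g) {f : M → ℝ} {y} (hf : Q.SmAt f (g y))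
    (hp : Q.PsdAt f (g y)) : Q.PsdAt (f ∘ g) y := by
  rintro i z hz rfl
  obtain ⟨j, z', hz', e⟩ := h.cover (g (Q.pt i z))
  obtain ⟨S, -, -, h3⟩ := trf hg.2 (i := i) hz hz' e.symm (ρ2 h j hz')
  have h4 := h3 f ((hf j z' hz' e).of_le two_le)
  have h5 := pb_psd S (hp j z' hz' e)
  rw [← h4] at h5
  exact h5

theorem aut_ma {g : M → M} (hg : Q.Aut g) {f : M → ℝ} {y} (hf : Q.SmAt f (g y)) :
    Q.MA (f ∘ g) y = Q.MA f (g y) := by
  obtain ⟨i, z, hz, rfl⟩ := h.cover y
  obtain ⟨j, z', hz', e⟩ := h.cover (g (Q.pt i z))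
  have h2 := (hf j z' hz' e).of_le two_le
  obtain ⟨S, -, h3, h4⟩ := trf hg.2 (i := i) hz hz' e.symm (ρ2 h j hz')
  have h5 : (Q.om (f ∘ g) i z) = pb S (Q.om f j z') := h4 f h2
  have h6 : Q.vol i z = ‖S.det‖ ^ 2 * Q.vol j z' := h3
  have h7 := vol_pos h i hz
  rw [h6] at h7
  rw [ma_pt h _ i hz ((aut_sm h hg hf i z hz rfl).of_le two_le), ← e, ma_pt h f j hz' h2, h5,
    det_pb, h6, mul_div_mul_left _ _ (left_ne_zero_of_mul h7.ne')]

variable [MeasurableSpace M] [BorelSpace M] {μ : Measure M} (hμ : Q.Vol μ)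
include hμ

theorem vol_sub (i) {V : Set (Cm N)} (hV : MeasurableSet V) (hs : V ⊆ Q.U i)
    (hm : MeasurableSet (Q.pt i '' V)) {f : M → ENNReal} (hf : Measurable f) :
    ∫⁻ y in Q.pt i '' V, f y ∂μ = ∫⁻ z in V, f (Q.pt i z) * ENNReal.ofReal (Q.vol i z) := by
  have h1 := hμ i _ (hf.indicator hm)
  rw [lintegral_indicator hm, Measure.restrict_restrict hm,
    inter_eq_left.2 (image_mono hs)] at h1
  rw [h1, show volume.restrict V = (volume.restrict (Q.U i)).restrict V by
    rw [Measure.restrict_restrict hV, inter_eq_left.2 hs], ← lintegral_indicator hV]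
  refine setLIntegral_congr_fun (h.opn i).measurableSet fun z hz => ?_
  by_cases h2 : z ∈ V
  · simp only [indicator_of_mem h2, indicator_of_mem (mem_image_of_mem _ h2)]
  · have : Q.pt i z ∉ Q.pt i '' V := fun ⟨w, hw, e⟩ => h2 (inj h i (hs hw) hz e ▸ hw)
    simp only [indicator_of_notMem h2, indicator_of_notMem this, zero_mul]

theorem locFin [T2Space M] : IsLocallyFiniteMeasure μ := ⟨fun y => by
  obtain ⟨i, z, hz, rfl⟩ := h.cover y
  obtain ⟨K, h1, h2, h3⟩ := local_compact_nhds ((h.opn i).mem_nhds hz)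
  refine ⟨_, nhds_img h i hz h1, ?_⟩
  have h4 := vol_sub h hμ i h3.measurableSet h2
    (h3.image_of_continuousOn ((contOn h i).mono h2)).measurableSet (f := fun _ => 1)
    measurable_const
  rw [setLIntegral_one] at h4
  simp only [one_mul] at h4
  rw [h4]
  exact (ContinuousOn.integrableOn_compact h3 fun w hw =>
    (vol_sm h i (h2 hw)).continuousAt.continuousWithinAt).lintegral_lt_top⟩

theorem dens_int [T2Space M] {ν f : M → ℝ} (hν : Q.Dens ν) (hf : Continuous f) :
    Integrable (fun y => f y * ν y) μ := by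
  haveI := locFin h hμ
  exact (hf.mul (dens_cont h hν)).integrable_of_hasCompactSupport hν.cpt.mul_left

theorem push_lint (i) {k : Cm N → ℝ} {f : M → ENNReal} (hk : Measurable k) (hf : Measurable f) :
    ∫⁻ y, f y * ENNReal.ofReal (Q.push i k y) ∂μ =
      ∫⁻ z in Q.U i, f (Q.pt i z) * ENNReal.ofReal (k z) := by
  have hv : Continuous fun z : Q.U i => Q.vol i z :=
    continuousOn_iff_continuous_restrict.1 fun w hw =>
      (vol_sm h i hw).continuousAt.continuousWithinAt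
  have hm : Measurable (Q.push i k) := (h.emb i).measurableEmbedding.measurable_extend
    ((hk.comp measurable_subtype_coe).div hv.measurable) measurable_const
  have ho := (open_img h i (h.opn i) subset_rfl).measurableSet
  have h1 := hμ i _ (hf.mul hm.ennreal_ofReal)
  rw [← lintegral_indicator ho] at h1
  refine Eq.trans (lintegral_congr fun y => ?_) (h1.trans
    (setLIntegral_congr_fun (h.opn i).measurableSet fun z hz => ?_))
  · by_cases hy : y ∈ Q.pt i '' Q.U i
    · rw [indicator_of_mem hy]; rfl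
    · rw [indicator_of_notMem hy, push_out i k hy, ENNReal.ofReal_zero, mul_zero]
  · have := vol_pos h i hz
    simp only [Pi.mul_apply]
    rw [push_pt h i k hz, mul_assoc, ← ENNReal.ofReal_mul' this.le, div_mul_cancel₀ _ this.ne']

theorem pm_lint {i c A k} {f : M → ENNReal} (hk : Ker k) (hi : Q.In i c A) (hf : Measurable f) :
    ∫⁻ y, f y * ENNReal.ofReal (Q.pm i c A k y) ∂μ =
      ∫⁻ u, f (Q.pt i (c + A *ᵥ u)) * ENNReal.ofReal (k u) := by
  rw [Pat.pm, push_lint h hμ i (mv_sm hk.1).continuous.measurable hf,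
    ← mv_lint k (fun z => f (Q.pt i z)) hi.1, ← lintegral_indicator (h.opn i).measurableSet]
  refine lintegral_congr fun z => ?_
  by_cases hz : z ∈ Q.U i
  · rw [indicator_of_mem hz]
  · have : mv c A k z = 0 := by
      by_contra hn
      obtain ⟨u, hu, rfl⟩ := mv_ne hi.1 hn
      exact hz (hi.2 u (hk.2.2 u hu))
    rw [indicator_of_notMem hz, this, ENNReal.ofReal_zero, mul_zero]

theorem pm_int [T2Space M] {i c A k} {f : M → ℝ} (hk : Ker k) (hi : Q.In i c A)
    (hf : Continuous f) :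
    ∫ y, f y * Q.pm i c A k y ∂μ = ∫ u, f (Q.pt i (c + A *ᵥ u)) * k u := by
  have hd := pm_dens h hk hi
  have hz : ∀ u ∉ closedBall (0 : Cm N) 1, f (Q.pt i (c + A *ᵥ u)) * k u = 0 := fun u hu => by
    rw [not_not.1 fun h1 => hu (mem_closedBall_zero_iff.2 (hk.2.2 u h1)), mul_zero]
  have hc : Continuous fun u => f (Q.pt i (c + A *ᵥ u)) * k u := by
    refine continuous_iff_continuousAt.2 fun u => ?_
    by_cases hu : u ∈ closedBall (0 : Cm N) 1
    · exact (hf.continuousAt.comp (ContinuousAt.comp (f := fun u => c + A *ᵥ u)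
        (cont_pt h i (hi.2 u (mem_closedBall_zero_iff.1 hu))) (aff_cont c A).continuousAt)).mul
        hk.1.continuous.continuousAt
    · refine (continuousAt_const (y := (0 : ℝ))).congr ?_
      filter_upwards [isClosed_closedBall.isOpen_compl.mem_nhds hu] with w hw using (hz w hw).symm
  rw [integral_eq_lintegral_pos_part_sub_lintegral_neg_part (dens_int h hμ hd hf),
    integral_eq_lintegral_pos_part_sub_lintegral_neg_part (hc.integrable_of_hasCompactSupport
      (HasCompactSupport.intro (isCompact_closedBall 0 1) hz))]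
  simp only [← neg_mul, ENNReal.ofReal_mul' (hd.nonneg _), ENNReal.ofReal_mul' (hk.2.1 _)]
  rw [pm_lint h hμ hk hi hf.measurable.ennreal_ofReal,
    pm_lint h hμ hk hi (f := fun y => ENNReal.ofReal (-f y)) hf.neg.measurable.ennreal_ofReal]

theorem aut_mp (g : M ≃ₜ M) (hg : Q.Aut g) : MeasurePreserving g μ μ := by
  haveI := sc h
  have key : ∀ y', ∃ W ∈ 𝓝 y', (μ.map g).restrict W = μ.restrict W := by
    intro y'
    obtain ⟨i, z, hz, e1⟩ := h.cover (g.symm y')
    obtain ⟨j, z', hz', e2⟩ := h.cover y'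
    have e3 : g (Q.pt i z) = Q.pt j z' := by rw [e1, e2, g.apply_symm_apply]
    obtain ⟨T, f, hT, hf, rfl, he⟩ := hg.2 i j z hz z' hz' e3
    have h1 : ∀ᶠ w in 𝓝 z, w ∈ Q.U i ∧ T w ∈ Q.U j ∧ AnalyticAt ℂ T w ∧ AnalyticAt ℂ f w ∧
        ∀ᶠ x in 𝓝 w, Q.pt j (T x) = g (Q.pt i x) ∧ Q.ρ i x = Q.ρ j (T x) + (f x).re := by
      filter_upwards [(h.opn i).mem_nhds hz, hT.continuousAt.eventually ((h.opn j).mem_nhds hz'),
        hT.eventually_analyticAt, hf.eventually_analyticAt, he.eventually_nhds] with w a b c d e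
      exact ⟨a, b, c, d, e⟩
    obtain ⟨V, hV, hVo, hzV⟩ := _root_.eventually_nhds_iff.1 h1
    have hs : V ⊆ Q.U i := fun w hw => (hV w hw).1
    have hp : ∀ w ∈ V, Q.pt j (T w) = g (Q.pt i w) := fun w hw =>
      (hV w hw).2.2.2.2.self_of_nhds.1
    have ho := open_img h i hVo hs
    have ho' : IsOpen (g '' (Q.pt i '' V)) := g.isOpenMap _ ho
    have himg : Q.pt j '' (T '' V) = g '' (Q.pt i '' V) := by
      simp only [image_image]
      exact image_congr hp
    have hTV : T '' V = Q.U j ∩ Q.pt j ⁻¹' (g '' (Q.pt i '' V)) := by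
      refine subset_antisymm ?_ ?_
      · rintro _ ⟨w, hw, rfl⟩
        exact ⟨(hV w hw).2.1, _, ⟨w, hw, rfl⟩, (hp w hw).symm⟩
      · rintro x ⟨hx, _, ⟨w, hw, rfl⟩, e⟩
        exact ⟨w, hw, inj h j (hV w hw).2.1 hx ((hp w hw).trans e)⟩
    have hvol : ∀ w ∈ V, Q.vol i w = ‖(jm T w).det‖ ^ 2 * Q.vol j (T w) := fun w hw => by
      obtain ⟨a, b, c, d, e⟩ := hV w hw
      have h2 : ContDiffAt ℝ 2 (fun x => (f x).re) w :=
        Complex.reCLM.contDiff.contDiffAt.comp w ((d.contDiffAt (n := 2)).restrict_scalars ℝ)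
      have h4 := C2.cHess_add (u := fun x => Q.ρ j (T x))
        ((ρ2 h j b).comp w ((c.contDiffAt (n := 2)).restrict_scalars ℝ)) h2
      have h5 := hess_comp c (ρ2 h j b)
      have h6 := C2.cHess_congr (u := Q.ρ i) (e.mono fun x hx => hx.2)
      rw [Pat.vol, Pat.vol, h6, h4, h5, hess_re d, add_zero, det_pb]
    refine ⟨g '' (Q.pt i '' V), ho'.mem_nhds ⟨_, ⟨z, hzV, rfl⟩, e3.trans e2⟩, ?_⟩
    refine Measure.ext_of_lintegral _ fun F hF => ?_
    rw [g.measurableEmbedding.restrict_map, g.measurableEmbedding.lintegral_map,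
      preimage_image_eq _ g.injective,
      vol_sub h hμ i hVo.measurableSet hs ho.measurableSet (f := fun a => F (g a))
        (hF.comp g.measurable), ← himg,
      vol_sub h hμ j (hTV ▸ ((contOn h j).isOpen_inter_preimage (h.opn j) ho').measurableSet)
        (hTV ▸ inter_subset_left) (himg ▸ ho'.measurableSet) hF,
      cov hVo.measurableSet (fun w hw => (hV w hw).2.2.1.differentiableAt) fun w hw x hx e =>
        inj h i (hs hw) (hs hx) (g.injective (by rw [← hp w hw, ← hp x hx, e]))]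
    refine setLIntegral_congr_fun hVo.measurableSet fun w hw => ?_
    rw [hp w hw, hvol w hw, ENNReal.ofReal_mul (sq_nonneg _), mul_left_comm]
  choose W hW hW' using key
  obtain ⟨s, hs, hc⟩ := TopologicalSpace.countable_cover_nhds hW
  exact ⟨g.measurable, Measure.ext_of_biUnion_eq_univ hs hc fun y _ => hW' y⟩

end ok

end PGa

open PGa in
theorem stPG : StPG := fun N M _ _ _ _ Q μ h hμ =>
  haveI := locFin h hμ
  haveI := sc h
  { lc := lc h
    sc := sc h
    fin := fun K hK => hK.measure_lt_top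
    sf := inferInstance
    map_pt := fun i z hz => map_pt h i hz
    inj := inj h
    vol_pos := fun i z hz => ⟨vol_pos h i hz, vol_sm h i hz⟩
    sm_of := fun f i z hz => sm_of h f i hz
    cont := fun f y => cont h
    psd_of := fun u i z hz => psd_of h u i hz
    ma_pt := fun u i z hz => ma_pt h u i hz
    ma_congr := fun u v c y => ma_congr h
    ma_sm := fun u y => ma_sm h
    tch := fun u ψ b y => tch h
    ma_cvx := fun u v t y => ma_cvx h
    vc₀ := vc₀ h
    dens_zero := dens_zero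
    dens_add := fun ν ν' => dens_add
    dens_smul := fun c ν => dens_smul
    dens_sub := fun ν ν' => dens_sub
    dens_sum := fun J s ν => dens_sum s
    dens_int := fun ν f => dens_int h hμ
    push_pt := fun i k z hz => push_pt h i k hz
    push_out := fun i k y => push_out i k
    push_dens := fun i k K => push_dens h i
    push_lint := fun i k f => push_lint h hμ i
    pm_dens := fun i c A k => pm_dens h
    pm_ne := fun i c A k y _ => pm_ne h
    pm_pt := fun i c A k u => pm_pt h k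
    pm_lint := fun i c A k f => pm_lint h hμ
    pm_int := fun i c A k f => pm_int h hμ
    aut := fun g hg => ⟨aut_mp h hμ g hg, fun f y => aut_sm h hg, fun f y => aut_psd h hg,
      fun f y => aut_ma h hg, fun ν hν => ⟨fun y => aut_sm h hg (hν.sm _), fun y => hν.nonneg _,
        hν.cpt.comp_homeomorph g⟩⟩ }

end Vale.Agent.P284Y
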