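import Vale.Agent.P284Y.GenSpec
import Vale.Agent.P284Z.J.JB

/-!
# P284Y: bumps and their affine images; the patches of the covering
-/

open scoped ContDiff Topology ComplexOrder ENNReal Matrix
open Filter Set Function Metric MeasureTheory

noncomputable section

namespace Vale.Agent.P284Y

open Vale.Agent.P272.K Vale.Agent.P284Z Vale.Agent.P284Z.J

namespace PGa

variable {k : ℕ} {q : ℝ}

theorem nsq_nonneg (u : Cm k) : 0 ≤ nsq u := Finset.sum_nonneg fun _ _ => sq_nonneg _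

theorem norm_le {u : Cm k} (h : nsq u ≤ 1) : ‖u‖ ≤ 1 :=
  (pi_norm_le_iff_of_nonneg zero_le_one).2 fun b =>
    (sq_le_one_iff₀ (norm_nonneg _)).1 ((Finset.single_le_sum (f := fun b => ‖u b‖ ^ 2)
      (fun _ _ => sq_nonneg _) (Finset.mem_univ b)).trans h)

theorem sm_nsq' : ContDiff ℝ ∞ (nsq : Cm k → ℝ) := by simpa using sm_nsq (0 : Cm k)

theorem sm₀ (q : ℝ) : ContDiff ℝ ∞ (bmp₀ (k := k) q) :=
  Real.smoothTransition.contDiff.comp ((contDiff_const.sub sm_nsq').div_const q)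

theorem nn₀ (q : ℝ) (u : Cm k) : 0 ≤ bmp₀ q u := Real.smoothTransition.nonneg _

theorem supp₀ (hq : 0 < q) {u : Cm k} (h : bmp₀ q u ≠ 0) : nsq u < 1 := by
  by_contra h1
  exact h (Real.smoothTransition.zero_of_nonpos
    (div_nonpos_of_nonpos_of_nonneg (by linarith) hq.le))

theorem cpt₀ (hq : 0 < q) : HasCompactSupport (bmp₀ (k := k) q) :=
  HasCompactSupport.intro (isCompact_closedBall 0 1) fun u hu => by
    by_contra h
    exact hu (mem_closedBall_zero_iff.2 (norm_le (supp₀ hq h).le))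

theorem int₀ (hq : 0 < q) : Integrable (bmp₀ (k := k) q) :=
  (sm₀ q).continuous.integrable_of_hasCompactSupport (cpt₀ hq)

theorem pos₀ (hq : 0 < q) : 0 < ∫ v : Cm k, bmp₀ q v :=
  (sm₀ q).continuous.integral_pos_of_hasCompactSupport_nonneg_nonzero (x := 0) (cpt₀ hq) (nn₀ q)
    (Real.smoothTransition.pos_of_pos (by simpa [nsq] using hq)).ne'

theorem bd (k : ℕ) : ∃ c > (0 : ℝ), ∀ q, 0 < q → q ≤ 1 / 2 → ∀ u : Cm k, bmp k q u ≤ c⁻¹ ∧
    (nsq u ≤ 1 - q → c ≤ bmp k q u) := by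
  have ha := pos₀ (k := k) (q := 1 / 2) (by norm_num)
  set a := ∫ v : Cm k, bmp₀ (1 / 2) v
  set b := (volume : Measure (Cm k)).real (closedBall 0 1)
  have key : ∀ q, 0 < q → q ≤ 1 / 2 → a ≤ ∫ v : Cm k, bmp₀ q v ∧ ∫ v : Cm k, bmp₀ q v ≤ b := by
    intro q h0 h1
    constructor
    · refine integral_mono (int₀ (by norm_num)) (int₀ h0) fun u => ?_
      by_cases h : bmp₀ (1 / 2) u = 0
      · rw [h]; exact nn₀ _ _
      · have := supp₀ (by norm_num) h
        exact Real.smoothTransition.monotone (div_le_div_of_nonneg_left (by linarith) h0 h1)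
    · have h2 := integral_indicator_one (μ := (volume : Measure (Cm k)))
        (measurableSet_closedBall (x := 0) (ε := 1))
      refine le_of_le_of_eq (integral_mono (int₀ h0) ?_ fun u => ?_) h2
      · exact (integrable_indicator_iff measurableSet_closedBall).2
          (integrableOn_const measure_closedBall_lt_top.ne)
      · by_cases h : bmp₀ q u = 0
        · rw [h]; exact indicator_nonneg (fun _ _ => zero_le_one) _
        · rw [indicator_of_mem (mem_closedBall_zero_iff.2 (norm_le (supp₀ h0 h).le))]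
          exact Real.smoothTransition.le_one _
  have hb : 0 < b := ha.trans_le (key _ (by norm_num) le_rfl).2
  refine ⟨min a b⁻¹, lt_min ha (inv_pos.2 hb), fun q h0 h1 u => ⟨?_, fun h => ?_⟩⟩
  · refine le_trans ?_ (inv_anti₀ (lt_min ha (inv_pos.2 hb)) (min_le_left _ _))
    rw [← one_div]
    exact div_le_div₀ zero_le_one (Real.smoothTransition.le_one _) ha (key q h0 h1).1
  · refine (min_le_right _ _).trans ?_
    have : bmp₀ q u = 1 := Real.smoothTransition.one_of_one_le ((one_le_div h0).2 (by linarith))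
    rw [bmp, this, one_div]
    exact inv_anti₀ (pos₀ h0) (key q h0 h1).2

variable {N : ℕ} {c : Cm N} {A : Mx N}

theorem inv_aff (h : A.det ≠ 0) (u : Cm N) : A⁻¹ *ᵥ (c + A *ᵥ u - c) = u := by
  rw [add_sub_cancel_left, Matrix.mulVec_mulVec, Matrix.nonsing_inv_mul _ (Ne.isUnit h),
    Matrix.one_mulVec]

theorem aff_inv (h : A.det ≠ 0) (z : Cm N) : c + A *ᵥ (A⁻¹ *ᵥ (z - c)) = z := by
  rw [Matrix.mulVec_mulVec, Matrix.mul_nonsing_inv _ (Ne.isUnit h), Matrix.one_mulVec,
    add_sub_cancel]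

theorem der_aff (c : Cm N) (A : Mx N) (u : Cm N) :
    HasFDerivAt (fun u => c + A *ᵥ u) (LinearMap.toContinuousLinearMap A.mulVecLin) u :=
  (LinearMap.toContinuousLinearMap A.mulVecLin).hasFDerivAt.const_add c

theorem sm_mulVec (A : Mx N) : ContDiff ℝ ∞ fun u : Cm N => A *ᵥ u :=
  ((LinearMap.toContinuousLinearMap A.mulVecLin).contDiff).restrict_scalars ℝ

theorem jm_aff (c : Cm N) (A : Mx N) (u : Cm N) : jm (fun u => c + A *ᵥ u) u = A := by
  ext b j
  rw [jm_apply, (der_aff c A u).fderiv]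
  simp

theorem mv_at (k : Cm N → ℝ) (u : Cm N) (h : A.det ≠ 0) :
    mv c A k (c + A *ᵥ u) = k u / ‖A.det‖ ^ 2 := by rw [mv, inv_aff h]

theorem mv_sm {k : Cm N → ℝ} (h : ContDiff ℝ ∞ k) : ContDiff ℝ ∞ (mv c A k) :=
  (h.comp ((sm_mulVec A⁻¹).comp (contDiff_id.sub contDiff_const))).div_const _

theorem mv_lint (k : Cm N → ℝ) (f : Cm N → ℝ≥0∞) (h : A.det ≠ 0) :
    ∫⁻ z, f z * ENNReal.ofReal (mv c A k z) = ∫⁻ u, f (c + A *ᵥ u) * ENNReal.ofReal (k u) := by
  have h1 := cov (U := univ) (Θ := fun u => c + A *ᵥ u) MeasurableSet.univ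
    (fun z _ => (der_aff c A z).differentiableAt)
    (fun u _ v _ e => by
      rw [← inv_aff (c := c) h u, ← inv_aff (c := c) h v]
      exact congrArg (fun x => A⁻¹ *ᵥ (x - c)) e)
    fun z => f z * ENNReal.ofReal (mv c A k z)
  have h2 : (fun u => c + A *ᵥ u) '' univ = univ :=
    eq_univ_of_forall fun z => ⟨_, trivial, aff_inv h z⟩
  rw [h2, Measure.restrict_univ] at h1
  rw [h1]
  refine lintegral_congr fun u => ?_
  have h3 : 0 < ‖A.det‖ ^ 2 := pow_pos (norm_pos_iff.2 h) 2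
  rw [jm_aff, mv_at k u h, mul_left_comm, ← ENNReal.ofReal_mul h3.le, mul_div_cancel₀ _ h3.ne']

end PGa

open PGa in
theorem bm : BM where
  ker k q h0 _ := ⟨⟨(sm₀ q).div_const _, fun u => div_nonneg (nn₀ q u) (pos₀ h0).le,
    fun u hu => norm_le (supp₀ h0 fun h => hu (by rw [bmp, h, zero_div])).le⟩, by
      unfold bmp
      rw [integral_div, div_self (pos₀ h0).ne']⟩
  supp k q u h0 hu := supp₀ h0 fun h => hu (by rw [bmp, h, zero_div])
  bd := bd
  rad k q u v h0 h := div_le_div_of_nonneg_right (Real.smoothTransition.monotone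
    (div_le_div_of_nonneg_right (by linarith) h0.le)) (pos₀ h0).le
  mv_at N c A k u h := mv_at k u h
  mv_sm N c A k h := mv_sm h.1
  mv_lint N c A k f h := mv_lint k f h

theorem stQE : StQE := by
  intro n Γ E _ _ _ _ C
  have htr : (QE C).Tr (QE C) := by
    rintro ⟨γ, a⟩ ⟨γ', b⟩ z hz z' hz' e
    have hz'' : z' ∈ (C.e b).target := by rw [C.tgt]; exact hz'
    have e1 : (γ'⁻¹ * γ) • (C.e a).symm z = (C.e b).symm z' := by
      rw [mul_smul, inv_smul_eq_iff]; exact e
    have hs : (γ'⁻¹ * γ) • (C.e a).symm z ∈ (C.e b).source := e1 ▸ (C.e b).map_target hz''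
    obtain ⟨g, hg, hg'⟩ := C.ρ_ch _ a b z hz hs
    refine ⟨fun w => C.e b ((γ'⁻¹ * γ) • (C.e a).symm w), g, C.hol _ a b z hz hs, hg, ?_, ?_⟩
    · simp only [e1, (C.e b).right_inv hz'']
    · have hc : ContinuousAt (fun w => (γ'⁻¹ * γ) • (C.e a).symm w) z :=
        (C.cont _).continuousAt.comp ((C.e a).continuousAt_symm (by rw [C.tgt]; exact hz))
      filter_upwards [hg', hc.eventually ((C.e b).open_source.mem_nhds hs)] with w h1 h2
      refine ⟨?_, h1⟩
      change γ' • (C.e b).symm (C.e b _) = γ • (C.e a).symm w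
      rw [(C.e b).left_inv h2, ← mul_smul, mul_inv_cancel_left]
  refine ⟨⟨inferInstanceAs (Countable (Γ × C.I)), fun i => isOpen_ball, ?_, fun y => ?_,
    fun i => C.ρ_sm i.2, fun i => C.ρ_pos i.2, htr⟩, fun γ => ⟨?_, ?_⟩⟩
  · rintro ⟨γ, a⟩
    let h : E ≃ₜ E :=
      { MulAction.toPerm γ with continuous_toFun := C.cont γ, continuous_invFun := C.cont γ⁻¹ }
    have h1 := (C.e a).symm.isOpenEmbedding_restrict
    rw [OpenPartialHomeomorph.symm_source, C.tgt] at h1
    exact h.isOpenEmbedding.comp h1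
  · obtain ⟨γ, a, z, hz, rfl⟩ := C.cover y
    exact ⟨(γ, a), z, ball_subset_ball (by linarith [C.r_pos a]) hz, rfl⟩
  · rintro i ⟨γ', b⟩ z hz z' hz' e
    have k : ∀ w, ((QE C).map fun y => γ • y).pt (γ', b) w = (QE C).pt (γ * γ', b) w := fun w =>
      (mul_smul _ _ _).symm
    simp only [k] at e ⊢
    exact htr i (γ * γ', b) z hz z' hz' e
  · rintro ⟨γ', b⟩ j z hz z' hz' e
    have k : ∀ w, ((QE C).map fun y => γ • y).pt (γ', b) w = (QE C).pt (γ * γ', b) w := fun w =>
      (mul_smul _ _ _).symm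
    simp only [k] at e ⊢
    exact htr (γ * γ', b) j z hz z' hz' e

end Vale.Agent.P284Y
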