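import Vale.Agent.P284Y.GenSpec

/-!
# P284Y, block Gen: comparison and masses
-/

set_option linter.all false

open scoped ContDiff Topology ComplexOrder ENNReal Matrix
open Filter Set Function Metric MeasureTheory Real

noncomputable section

namespace Vale.Agent.P284Y.GN

open Vale.Agent.P272.K Vale.Agent.P284Z

variable {N : ℕ} {M : Type} [TopologicalSpace M] [T2Space M] [MeasurableSpace M] [BorelSpace M]
  {Q : Pat N M} {μ : Measure M} (S : MAS Q μ) (hP : PG Q μ) {ν ν' p p' : M → ℝ}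

theorem two_le : (2 : WithTop ℕ∞) ≤ ((⊤ : ℕ∞) : WithTop ℕ∞) :=
  WithTop.coe_le_coe.2 (le_top (a := (2 : ℕ∞)))

theorem hess_add_const (f : Cm N → ℝ) (c : ℝ) (z : Cm N) :
    cHess (fun w => f w + c) z = cHess f z := by
  ext j k
  simp only [cHess, Matrix.of_apply]
  congr 1
  funext y
  simp only [dzb, Complex.ofReal_add, fderiv_add_const]

theorem om_add_const (u : M → ℝ) (c : ℝ) (i : Q.ι) (z : Cm N) :
    Q.om (fun x => u x + c) i z = Q.om u i z := by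
  simp only [Pat.om, ← add_assoc]
  exact hess_add_const _ c z

theorem smAt_add_const {u : M → ℝ} {y : M} (h : Q.SmAt u y) (c : ℝ) :
    Q.SmAt (fun x => u x + c) y := fun i z hz e => (h i z hz e).add contDiffAt_const

theorem psdAt_add_const {u : M → ℝ} {y : M} (h : Q.PsdAt u y) (c : ℝ) :
    Q.PsdAt (fun x => u x + c) y := fun i z hz e => by
  rw [om_add_const]
  exact h i z hz e

include hP

theorem ma_add_const (u : M → ℝ) (c : ℝ) (y : M) : Q.MA (fun x => u x + c) y = Q.MA u y :=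
  hP.ma_congr _ _ c y (Eventually.of_forall fun _ => rfl)

theorem dens_cont (hν : Q.Dens ν) : Continuous ν :=
  continuous_iff_continuousAt.2 fun y => hP.cont _ y (hν.sm y)

theorem dens_integrable (hν : Q.Dens ν) : Integrable ν μ := by
  simpa using hP.dens_int ν (fun _ => 1) hν continuous_const

theorem dens_bdd (hν : Q.Dens ν) : ∃ A, 0 ≤ A ∧ ∀ y, ν y ≤ A := by
  obtain ⟨A, hA⟩ := (dens_cont hP hν).bddAbove_range_of_hasCompactSupport hν.cpt
  exact ⟨max A 0, le_max_right _ _, fun y => (hA ⟨y, rfl⟩).trans (le_max_left _ _)⟩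

theorem dens_ray (hν : Q.Dens ν) (hp : Q.Dens p) (l : ℝ) : Q.Dens (ν + exp l • p) :=
  hP.dens_add _ _ hν (hP.dens_smul _ _ (exp_pos l).le hp)

theorem cont (hν : Q.Dens ν) : Continuous (S.φ ν) :=
  continuous_iff_continuousAt.2 fun y => hP.cont _ y (S.sm ν hν y)

omit hP in
theorem psd (hν : Q.Dens ν) (y : M) : Q.PsdAt (S.φ ν) y :=
  fun i z hz _ => (S.pos ν hν i z hz).posSemidef

theorem ma (hν : Q.Dens ν) (y : M) : Q.MA (S.φ ν) y = exp (S.φ ν y) * (1 + ν y) := by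
  obtain ⟨i, z, hz, rfl⟩ := S.ok.cover y
  rw [hP.ma_pt _ i z hz ((S.sm ν hν _ i z hz rfl).of_le two_le), S.eq ν hν i z hz,
    mul_div_cancel_right₀ _ (hP.vol_pos i z hz).1.ne']

omit hP in
theorem exists_cpt {f : M → ℝ} (hf : Tendsto f (cocompact M) (𝓝 0)) {ε : ℝ} (hε : 0 < ε) :
    ∃ K, IsCompact K ∧ ∀ y ∉ K, -ε ≤ f y := by
  obtain ⟨K, hK, h⟩ := mem_cocompact.1 (hf.eventually (lt_mem_nhds (neg_lt_zero.2 hε)))
  exact ⟨K, hK, fun y hy => (h hy).le⟩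

/-- comparison with a smooth supersolution -/
theorem vc' {a ψ : M → ℝ} {D : Set M} (hν : Q.Dens ν) (ha : ∀ y, Q.SmAt a y)
    (hd : Tendsto a (cocompact M) (𝓝 0)) (hm : ∀ y, Q.MA a y ≤ exp (a y) * (1 + ν y))
    (hD : IsOpen D) (hu : UpperSemicontinuousOn ψ (closure D)) (hf : ∀ y ∈ frontier D, ψ y ≤ a y)
    (hK : ∀ ε > (0 : ℝ), ∃ K, IsCompact K ∧ ∀ y ∈ D \ K, ψ y ≤ ε)
    (hs : ∀ y ∈ D, a y < ψ y → Q.Sub ν ψ y) : ∀ y ∈ D, ψ y ≤ a y := by
  have hc : Continuous a := continuous_iff_continuousAt.2 fun y => hP.cont _ y (ha y)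
  refine hP.vc₀ D a ψ hD (fun y _ => ha y) ?_ hf (fun ε hε => ?_) fun y hy h => ⟨_, ?_, hs y hy h⟩
  · simp only [sub_eq_add_neg]
    exact hu.add (hc.neg.upperSemicontinuous.upperSemicontinuousOn _)
  · obtain ⟨K₁, h1, h2⟩ := hK (ε / 2) (half_pos hε)
    obtain ⟨K₂, h3, h4⟩ := exists_cpt hd (half_pos hε)
    refine ⟨K₁ ∪ K₂, h1.union h3, fun y hy => ?_⟩
    have h5 := h2 y ⟨hy.1, fun h => hy.2 (Or.inl h)⟩
    have h6 := h4 y fun h => hy.2 (Or.inr h)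
    linarith
  · have := hν.nonneg y
    exact (hm y).trans_lt (mul_lt_mul_of_pos_right (exp_lt_exp.2 h) (by linarith))

theorem vc {ψ : M → ℝ} {D : Set M} (hν : Q.Dens ν) (hD : IsOpen D)
    (hu : UpperSemicontinuousOn ψ (closure D)) (hf : ∀ y ∈ frontier D, ψ y ≤ S.φ ν y)
    (hK : ∀ ε > (0 : ℝ), ∃ K, IsCompact K ∧ ∀ y ∈ D \ K, ψ y ≤ ε)
    (hs : ∀ y ∈ D, S.φ ν y < ψ y → Q.Sub ν ψ y) : ∀ y ∈ D, ψ y ≤ S.φ ν y :=
  vc' hP hν (S.sm ν hν) (S.decay ν hν) (fun y => (ma S hP hν y).le) hD hu hf hK hs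

/-- a smooth non positive subsolution lies below a smooth supersolution -/
theorem le_of_sub {a ψ : M → ℝ} (hν : Q.Dens ν) (ha : ∀ y, Q.SmAt a y)
    (hd : Tendsto a (cocompact M) (𝓝 0)) (hm : ∀ y, Q.MA a y ≤ exp (a y) * (1 + ν y))
    (h1 : ∀ y, Q.SmAt ψ y) (h2 : ∀ y, Q.PsdAt ψ y) (h3 : ∀ y, ψ y ≤ 0)
    (h4 : ∀ y, exp (ψ y) * (1 + ν y) ≤ Q.MA ψ y) (y : M) : ψ y ≤ a y :=
  vc' hP hν ha hd hm isOpen_univ
    ((continuous_iff_continuousAt.2 fun y => hP.cont _ y (h1 y)).upperSemicontinuous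
      |>.upperSemicontinuousOn _) (by simp)
    (fun ε hε => ⟨∅, isCompact_empty, fun y _ => (h3 y).trans hε.le⟩)
    (fun y _ _ => hP.tch ψ ψ _ y (h1 y) (h2 y) rfl (Eventually.of_forall fun _ => le_rfl) (h4 y))
    y (mem_univ y)

theorem zero : S.φ 0 = 0 := by
  funext y
  refine le_antisymm (S.nonpos 0 hP.dens_zero y) ?_
  have h0 : ∀ i z, Q.om 0 i z = cHess (Q.ρ i) z := fun i z => by simp [Pat.om]
  refine le_of_sub hP hP.dens_zero (S.sm 0 hP.dens_zero) (S.decay 0 hP.dens_zero)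
    (fun y => (ma S hP hP.dens_zero y).le) (ψ := 0) (fun y i z hz e => contDiffAt_const)
    (fun y i z hz e => ?_) (fun _ => le_rfl) (fun y => ?_) y
  · rw [h0]
    exact (S.ok.ρ_pos i z hz).posSemidef
  · obtain ⟨i, z, hz, rfl⟩ := S.ok.cover y
    rw [hP.ma_pt _ i z hz contDiffAt_const, h0]
    simp only [Pi.zero_apply, exp_zero, add_zero, mul_one]
    exact (div_self (hP.vol_pos i z hz).1.ne').ge

theorem cmp {h : ℝ} (hν : Q.Dens ν) (hν' : Q.Dens ν') (h0 : 0 ≤ h)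
    (hh : ∀ y, 1 + ν' y ≤ exp h * (1 + ν y)) (y : M) : S.φ ν y - h ≤ S.φ ν' y := by
  refine le_of_sub hP hν' (S.sm ν' hν') (S.decay ν' hν') (fun y => (ma S hP hν' y).le)
    (ψ := fun x => S.φ ν x + -h) (fun y => smAt_add_const (S.sm ν hν y) _)
    (fun y => psdAt_add_const (psd S hν y) _) (fun y => ?_) (fun y => ?_) y
  · have := S.nonpos ν hν y
    linarith
  · rw [ma_add_const hP, ma S hP hν, exp_add, mul_assoc]
    refine mul_le_mul_of_nonneg_left ?_ (exp_pos _).le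
    rw [exp_neg, inv_mul_le_iff₀ (exp_pos h)]
    exact hh y

theorem mono (hν : Q.Dens ν) (hν' : Q.Dens ν') (h : ν ≤ ν') (y : M) : S.φ ν' y ≤ S.φ ν y := by
  simpa using cmp S hP hν' hν le_rfl (fun y => by simpa using h y) y

theorem low {A : ℝ} (hν : Q.Dens ν) (h : ∀ y, ν y ≤ A) (y : M) : -log (1 + A) ≤ S.φ ν y := by
  have h0 : 0 ≤ A := (hν.nonneg y).trans (h y)
  have h1 := cmp S hP hP.dens_zero hν (log_nonneg (by linarith : 1 ≤ 1 + A)) (fun y => by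
    rw [exp_log (by linarith)]
    simpa using h y) y
  simpa [zero S hP] using h1

theorem aut_φ (g : M ≃ₜ M) (hg : Q.Aut g) (hν : Q.Dens ν) : S.φ (ν ∘ g) = S.φ ν ∘ g := by
  obtain ⟨-, h1, h2, h3, h4⟩ := hP.aut g hg
  have h5 : ∀ y, Q.MA (S.φ ν ∘ g) y = exp ((S.φ ν ∘ g) y) * (1 + (ν ∘ g) y) := fun y => by
    rw [h3 _ y (S.sm ν hν _), ma S hP hν]
    rfl
  have h6 := h4 ν hν
  funext y
  refine le_antisymm ?_ ?_
  · exact le_of_sub hP h6 (fun y => h1 _ y (S.sm ν hν _))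
      ((S.decay ν hν).comp g.isClosedEmbedding.tendsto_cocompact) (fun y => (h5 y).le)
      (S.sm _ h6) (psd S h6) (S.nonpos _ h6) (fun y => (ma S hP h6 y).ge) y
  · exact le_of_sub hP h6 (S.sm _ h6) (S.decay _ h6) (fun y => (ma S hP h6 y).le)
      (fun y => h1 _ y (S.sm ν hν _)) (fun y => h2 _ y (S.sm ν hν _) (psd S hν _))
      (fun y => S.nonpos ν hν _) (fun y => (h5 y).ge) y

/-! ### masses -/

theorem ms_int (hν : Q.Dens ν) (hp : Q.Dens p) : Integrable (fun y => exp (S.φ ν y) * p y) μ :=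
  hP.dens_int p _ hp (cont S hP hν).rexp

omit hP in
theorem ms_nonneg (ν : M → ℝ) (hp : Q.Dens p) : 0 ≤ S.ms ν p :=
  integral_nonneg fun y => mul_nonneg (exp_pos _).le (hp.nonneg y)

theorem ms_lint' (hν : Q.Dens ν) (hp : Q.Dens p) :
    ENNReal.ofReal (S.ms ν p) = ∫⁻ y, ENNReal.ofReal (exp (S.φ ν y) * p y) ∂μ :=
  ofReal_integral_eq_lintegral_ofReal (ms_int S hP hν hp)
    (Eventually.of_forall fun y => mul_nonneg (exp_pos _).le (hp.nonneg y))

theorem ms_lint (hν : Q.Dens ν) (hp : Q.Dens p) : ENNReal.ofReal (S.ms ν p) =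
    ∫⁻ y, ENNReal.ofReal (exp (S.φ ν y)) * ENNReal.ofReal (p y) ∂μ := by
  simp only [ms_lint' S hP hν hp, ENNReal.ofReal_mul (exp_pos _).le]

theorem ms_add (hν : Q.Dens ν) (hp : Q.Dens p) (hp' : Q.Dens p') :
    S.ms ν (p + p') = S.ms ν p + S.ms ν p' := by
  simp only [MAS.ms, Pi.add_apply, mul_add]
  exact integral_add (ms_int S hP hν hp) (ms_int S hP hν hp')

omit hP in
theorem ms_smul (ν p : M → ℝ) (c : ℝ) : S.ms ν (c • p) = c * S.ms ν p := by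
  simp only [MAS.ms, Pi.smul_apply, smul_eq_mul, mul_left_comm _ c]
  exact integral_const_mul _ _

/-- comparison of masses from a comparison of the solutions -/
theorem ms_le_ms {b : ℝ} (hν : Q.Dens ν) (hν' : Q.Dens ν') (hp : Q.Dens p)
    (h : ∀ y, S.φ ν y ≤ S.φ ν' y + b) : S.ms ν p ≤ exp b * S.ms ν' p := by
  rw [MAS.ms, MAS.ms, ← integral_const_mul]
  refine integral_mono (ms_int S hP hν hp) ((ms_int S hP hν' hp).const_mul _) fun y => ?_
  show _ ≤ exp b * (exp _ * _)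
  rw [← mul_assoc, ← exp_add, add_comm]
  exact mul_le_mul_of_nonneg_right (exp_le_exp.2 (h y)) (hp.nonneg y)

theorem ms_mono (hν : Q.Dens ν) (hν' : Q.Dens ν') (hp : Q.Dens p) (hp' : Q.Dens p') (h : ν' ≤ ν)
    (h' : p ≤ p') : S.ms ν p ≤ S.ms ν' p' :=
  integral_mono (ms_int S hP hν hp) (ms_int S hP hν' hp') fun y =>
    mul_le_mul (exp_le_exp.2 (mono S hP hν' hν h y)) (h' y) (hp.nonneg y) (exp_pos _).le

theorem ms_le {b : ℝ} (hν : Q.Dens ν) (hp : Q.Dens p) (h : ∀ y, p y ≠ 0 → S.φ ν y ≤ b) :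
    S.ms ν p ≤ exp b * ∫ y, p y ∂μ := by
  rw [← integral_const_mul]
  refine integral_mono (ms_int S hP hν hp) ((dens_integrable hP hp).const_mul _) fun y => ?_
  by_cases h0 : p y = 0
  · simp [h0]
  · exact mul_le_mul_of_nonneg_right (exp_le_exp.2 (h y h0)) (hp.nonneg y)

theorem vneg (hν : Q.Dens ν) : μ {y | S.φ ν y < -1} ≤ ENNReal.ofReal (2 * S.ms ν ν) := by
  have h0 : ∀ y, 0 ≤ 1 - exp (S.φ ν y) := fun y =>
    sub_nonneg.2 (exp_le_one_iff.2 (S.nonpos ν hν y))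
  obtain ⟨h1, h2⟩ := S.mi ν hν
  have h3 : MeasurableSet {y | S.φ ν y < -1} :=
    (isOpen_lt (cont S hP hν) continuous_const).measurableSet
  rw [MAS.ms, ← h2, ← integral_const_mul, ofReal_integral_eq_lintegral_ofReal (h1.const_mul 2)
    (Eventually.of_forall fun y => mul_nonneg zero_le_two (h0 y)), ← setLIntegral_one]
  refine (setLIntegral_mono' h3 fun y hy => ?_).trans (setLIntegral_le_lintegral _ _)
  rw [ENNReal.one_le_ofReal]
  have h4 : exp (S.φ ν y) ≤ exp (-1) := exp_le_exp.2 (le_of_lt hy)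
  have h5 : exp (-1) ≤ 1 / 2 := by
    rw [exp_neg, one_div]
    exact inv_anti₀ two_pos (by linarith [add_one_le_exp (1 : ℝ)])
  linarith

theorem open_lt {D : Set M} {a b : M → ℝ} (hD : IsOpen D) (ha : ∀ y ∈ D, Q.SmAt a y)
    (hb : ∀ y ∈ D, Q.SmAt b y) : IsOpen {y ∈ D | b y < a y} := by
  refine isOpen_iff_mem_nhds.2 fun y hy => ?_
  exact (hD.eventually_mem hy.1).and
    ((hP.cont _ y (hb y hy.1)).eventually_lt (hP.cont _ y (ha y hy.1)) hy.2)

theorem mt {ν₁ ν₂ : M → ℝ} {D K : Set M} {b : M → ℝ} {l : M → ℝ≥0∞} {K₀ d d' : ℝ}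
    (h₁ : Q.Dens ν₁) (h₂ : Q.Dens ν₂) (hD : IsOpen D) (hK : IsCompact K) (hKD : K ⊆ D)
    (hb : Q.SP b D) (hb0 : ∀ y ∈ D, b y ≤ K₀) (hd : K₀ + 1 ≤ d')
    (hA : {y ∈ D | S.φ (ν₁ + ν₂) y < b y - d'} ⊆ K)
    (hl : ∀ y ∈ D, S.φ (ν₁ + ν₂) y < b y - d' → ν₂ y = 0 ∧ l y ≤ ENNReal.ofReal (Q.MA b y))
    (hl' : ∀ y ∈ D, b y - d' ≤ S.φ (ν₁ + ν₂) y → l y ≤ ENNReal.ofReal (exp (b y - d) * ν₁ y))
    (hl0 : ∀ y ∉ D, l y = 0) :
    ∫⁻ y, l y ∂μ ≤ ENNReal.ofReal ((1 + exp (d' - d)) * S.ms (ν₁ + ν₂) ν₁ +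
      2 * exp (K₀ - d') * S.ms (ν₁ + ν₂) (ν₁ + ν₂)) := by
  have hν := hP.dens_add _ _ h₁ h₂
  set φ := S.φ (ν₁ + ν₂) with hφ
  have hb' : Q.SP (fun x => b x + -d') D := fun y hy =>
    ⟨smAt_add_const (hb y hy).1 _, psdAt_add_const (hb y hy).2 _⟩
  have hAm : MeasurableSet {y ∈ D | φ y < b y + -d'} :=
    (open_lt hP hD (fun y hy => (hb' y hy).1) fun y _ => S.sm _ hν y).measurableSet
  have h1 := S.mc D K (fun x => b x + -d') φ hD hK hKD hb'
    (fun y _ => ⟨S.sm _ hν y, psd S hν y⟩) hA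
  have m1 := ms_nonneg S (ν₁ + ν₂) h₁
  have m2 := ms_nonneg S (ν₁ + ν₂) hν
  have h2 : ∫⁻ y in {y ∈ D | φ y < b y + -d'}, l y ∂μ ≤ ENNReal.ofReal (S.ms (ν₁ + ν₂) ν₁) +
      ENNReal.ofReal (exp (K₀ - d')) * ENNReal.ofReal (2 * S.ms (ν₁ + ν₂) (ν₁ + ν₂)) := by
    refine (setLIntegral_mono' hAm fun y hy => ?_).trans (h1.trans ((setLIntegral_mono' hAm
      (g := fun y => ENNReal.ofReal (exp (φ y) * ν₁ y) + ENNReal.ofReal (exp (K₀ - d')))
      fun y hy => ?_).trans ?_))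
    · rw [ma_add_const hP]
      exact (hl y hy.1 hy.2).2
    · rw [ma S hP hν, Pi.add_apply, (hl y hy.1 hy.2).1, add_zero, mul_add, mul_one, add_comm]
      refine ENNReal.ofReal_add_le.trans (add_le_add le_rfl (ENNReal.ofReal_le_ofReal
        (exp_le_exp.2 ?_)))
      have := hb0 y hy.1
      have := hy.2
      linarith
    · rw [lintegral_add_right _ measurable_const, setLIntegral_const, ms_lint' S hP hν h₁]
      refine add_le_add (setLIntegral_le_lintegral _ _) (mul_le_mul_right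
        ((measure_mono fun y hy => ?_).trans (vneg S hP hν)) _)
      have := hb0 y hy.1
      have := hy.2
      show φ y < -1
      linarith
  have h3 : ∫⁻ y in {y ∈ D | φ y < b y + -d'}ᶜ, l y ∂μ ≤
      ENNReal.ofReal (exp (d' - d)) * ENNReal.ofReal (S.ms (ν₁ + ν₂) ν₁) := by
    rw [ms_lint' S hP hν h₁, ← lintegral_const_mul' _ _ ENNReal.ofReal_ne_top]
    refine (setLIntegral_mono' hAm.compl fun y hy => ?_).trans (setLIntegral_le_lintegral _ _)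
    by_cases hy' : y ∈ D
    · have h4 : b y - d' ≤ φ y := not_lt.1 fun h => hy ⟨hy', h⟩
      rw [← ENNReal.ofReal_mul (exp_pos _).le, ← mul_assoc, ← exp_add]
      exact (hl' y hy' h4).trans (ENNReal.ofReal_le_ofReal (mul_le_mul_of_nonneg_right
        (exp_le_exp.2 (by linarith)) (h₁.nonneg y)))
    · rw [hl0 y hy']
      exact zero_le
  rw [← lintegral_add_compl l hAm]
  refine (add_le_add h2 h3).trans_eq ?_
  rw [← ENNReal.ofReal_mul (exp_pos _).le, ← ENNReal.ofReal_mul (exp_pos _).le,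
    ← ENNReal.ofReal_add m1 (by positivity), ← ENNReal.ofReal_add (by positivity) (by positivity)]
  congr 1
  ring

theorem mup {D K : Set M} {b : M → ℝ} {d : ℝ} (hν : Q.Dens ν) (hp : Q.Dens p) (hpν : p ≤ ν)
    (hD : IsOpen D) (hK : IsCompact K) (hKD : K ⊆ D) (hb : Q.SP b D) (h1 : ∀ y, p y ≠ 0 → y ∈ D)
    (hA : {y ∈ D | b y < S.φ ν y} ⊆ K) (h2 : ∀ y, p y ≠ 0 → b y ≤ -d) :
    ENNReal.ofReal (S.ms ν p) ≤ ∫⁻ y in {y ∈ D | b y < S.φ ν y}, ENNReal.ofReal (Q.MA b y) ∂μ +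
      ENNReal.ofReal (exp (-d) * ∫ y, p y ∂μ) := by
  have hAm : MeasurableSet {y ∈ D | b y < S.φ ν y} :=
    (open_lt hP hD (fun y _ => S.sm _ hν y) fun y hy => (hb y hy).1).measurableSet
  rw [ms_lint' S hP hν hp, ← lintegral_add_compl _ hAm, ← integral_const_mul,
    ofReal_integral_eq_lintegral_ofReal ((dens_integrable hP hp).const_mul _)
      (Eventually.of_forall fun y => mul_nonneg (exp_pos _).le (hp.nonneg y))]
  refine add_le_add ((setLIntegral_mono' hAm fun y _ => ?_).trans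
    (S.mc D K _ b hD hK hKD (fun y _ => ⟨S.sm _ hν y, psd S hν y⟩) hb hA))
    ((setLIntegral_mono' hAm.compl fun y hy => ?_).trans (setLIntegral_le_lintegral _ _))
  · rw [ma S hP hν]
    have := hpν y
    exact ENNReal.ofReal_le_ofReal (mul_le_mul_of_nonneg_left (by linarith) (exp_pos _).le)
  · refine ENNReal.ofReal_le_ofReal ?_
    by_cases h0 : p y = 0
    · simp [h0]
    · exact mul_le_mul_of_nonneg_right (exp_le_exp.2
        ((not_lt.1 fun h => hy ⟨h1 y h0, h⟩).trans (h2 y h0))) (hp.nonneg y)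

end Vale.Agent.P284Y.GN
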