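import Vale.Agent.P284Y.Gen.PGBm
import Mathlib.Analysis.MeanInequalities

/-!
# P284Y: calculus in the patches, pointwise part
-/

set_option linter.all false

open scoped ContDiff Topology ComplexOrder Matrix
open Filter Set Function Metric MeasureTheory

noncomputable section

namespace Vale.Agent.P284Y

open Vale.Agent.P272.K Vale.Agent.P284Z Vale.Agent.P284Z.J

namespace PGa

variable {N : ℕ}

theorem det_pb (S H : Mx N) : (pb S H).det.re = ‖S.det‖ ^ 2 * H.det.re := by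
  rw [pb, Matrix.det_mul, Matrix.det_mul, Matrix.det_transpose,
    show S.map (starRingEnd ℂ) = (starRingEnd ℂ).mapMatrix S from rfl, ← RingHom.map_det,
    mul_right_comm, Complex.mul_conj', ← Complex.ofReal_pow, Complex.re_ofReal_mul]

theorem det_mono {A B : Mx N} (hA : A.PosSemidef) (h : (B - A).PosSemidef) :
    A.det.re ≤ B.det.re := by
  have := md_mono (X := fun _ => A) (Y := fun _ => B) (fun _ => hA) fun _ => h
  rw [md_const, md_const] at this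
  exact le_of_mul_le_mul_left this (by positivity)

theorem det_nonneg {A : Mx N} (hA : A.PosSemidef) : 0 ≤ A.det.re :=
  (Complex.le_def.1 hA.det_nonneg).1

theorem det_smul (t : ℝ) (A : Mx N) : ((t : ℂ) • A).det.re = t ^ N * A.det.re := by
  rw [Matrix.det_smul, Fintype.card_fin, ← Complex.ofReal_pow, Complex.re_ofReal_mul]

theorem det_one {C : Mx N} (hC : C.PosSemidef) {t : ℝ} (h0 : 0 ≤ t) (h1 : t ≤ 1) :
    C.det.re ^ t ≤ (((1 - t : ℝ) : ℂ) • (1 : Mx N) + (t : ℂ) • C).det.re := by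
  have hs := hC.1.spectral_theorem
  set U : Mx N := (hC.1.eigenvectorUnitary : Mx N) with hU
  have hUU : U * star U = 1 := Unitary.coe_mul_star_self _
  have h2 : (U * star U).det = 1 := by rw [hUU, Matrix.det_one]
  rw [Matrix.det_mul] at h2
  have h3 : ((1 - t : ℝ) : ℂ) • (1 : Mx N) + (t : ℂ) • C = U * (((1 - t : ℝ) : ℂ) • (1 : Mx N) +
      (t : ℂ) • Matrix.diagonal (RCLike.ofReal ∘ hC.1.eigenvalues)) * star U := by
    rw [mul_add, add_mul, mul_smul_comm, smul_mul_assoc, mul_one, hUU, mul_smul_comm,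
      smul_mul_assoc]
    congr 2
  have h4 : (((1 - t : ℝ) : ℂ) • (1 : Mx N) + (t : ℂ) • C).det =
      ((∏ i, ((1 - t) + t * hC.1.eigenvalues i) : ℝ) : ℂ) := by
    rw [h3, Matrix.det_mul, Matrix.det_mul, mul_right_comm, h2, one_mul, ← Matrix.diagonal_one,
      ← Matrix.diagonal_smul, ← Matrix.diagonal_smul, Matrix.diagonal_add, Matrix.det_diagonal]
    simp
  have h5 : C.det.re = ∏ i, hC.1.eigenvalues i := by
    rw [hC.1.det_eq_prod_eigenvalues]
    exact_mod_cast Complex.ofReal_re (∏ i, hC.1.eigenvalues i)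
  rw [h4, Complex.ofReal_re, h5,
    ← Real.finsetProd_rpow _ _ (fun i _ => hC.eigenvalues_nonneg i)]
  refine Finset.prod_le_prod (fun i _ => Real.rpow_nonneg (hC.eigenvalues_nonneg i) _)
    fun i _ => ?_
  have := Real.geom_mean_le_arith_mean2_weighted (w₁ := 1 - t) (by linarith) h0 zero_le_one
    (hC.eigenvalues_nonneg i) (by ring)
  simpa using this

open scoped MatrixOrder in
theorem det_cvx {A B : Mx N} (hA : A.PosSemidef) (hB : B.PosSemidef) (hd : 0 < A.det.re) {t : ℝ}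
    (h0 : 0 ≤ t) (h1 : t ≤ 1) :
    A.det.re ^ (1 - t) * B.det.re ^ t ≤ (((1 - t : ℝ) : ℂ) • A + (t : ℂ) • B).det.re := by
  obtain ⟨y, hy⟩ := CStarAlgebra.nonneg_iff_eq_star_mul_self.mp hA.nonneg
  have hydet : IsUnit y.det := by
    rw [isUnit_iff_ne_zero]
    intro h
    rw [hy, Matrix.det_mul, h, mul_zero] at hd
    exact lt_irrefl _ hd
  have hD : (y⁻¹ᴴ * B * y⁻¹).PosSemidef := hB.conjTranspose_mul_mul_same _
  set D := y⁻¹ᴴ * B * y⁻¹ with hDdef
  have e2 : star y * y⁻¹ᴴ = 1 := by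
    rw [Matrix.star_eq_conjTranspose, ← Matrix.conjTranspose_mul, Matrix.nonsing_inv_mul _ hydet,
      Matrix.conjTranspose_one]
  have e1 : B = star y * D * y := by
    have : star y * (y⁻¹ᴴ * B * y⁻¹) * y = (star y * y⁻¹ᴴ) * B * (y⁻¹ * y) := by noncomm_ring
    rw [hDdef, this, e2, Matrix.nonsing_inv_mul _ hydet, one_mul, mul_one]
  have hA' : A.det = (A.det.re : ℂ) :=
    Complex.ext rfl (by simpa using (Complex.le_def.1 hA.det_nonneg).2.symm)
  have key : ∀ X : Mx N, (star y * X * y).det.re = A.det.re * X.det.re := fun X => by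
    rw [Matrix.det_mul, Matrix.det_mul, mul_right_comm, ← Matrix.det_mul, ← hy, hA',
      Complex.re_ofReal_mul, Complex.ofReal_re]
  have e3 : ((1 - t : ℝ) : ℂ) • A + (t : ℂ) • B =
      star y * (((1 - t : ℝ) : ℂ) • (1 : Mx N) + (t : ℂ) • D) * y := by
    rw [mul_add, add_mul, mul_smul_comm, smul_mul_assoc, mul_one, ← hy, mul_smul_comm,
      smul_mul_assoc, ← e1]
  rw [e3, key, e1, key, Real.mul_rpow hd.le (det_nonneg hD), ← mul_assoc, ← Real.rpow_add hd,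
    sub_add_cancel, Real.rpow_one]
  exact mul_le_mul_of_nonneg_left (det_one hD h0 h1) hd.le

theorem cHess_add_const (f : Cm N → ℝ) (c : ℝ) (z : Cm N) :
    cHess (fun w => f w + c) z = cHess f z := by
  ext j k
  simp only [C2.cHess_apply]
  congr 1
  funext w
  simp only [dzb, Complex.ofReal_add, fderiv_add_const]

variable {M : Type} {Q Q' : Pat N M}

/-- the change of patch -/
theorem trf (h : Q.Tr Q') {i j} {z z' : Cm N} (hz : z ∈ Q.U i) (hz' : z' ∈ Q'.U j)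
    (e : Q.pt i z = Q'.pt j z') (hρ : ContDiffAt ℝ 2 (Q'.ρ j) z') : ∃ S : Mx N,
      (∀ (k : WithTop ℕ∞) (f : M → ℝ), ContDiffAt ℝ k (fun w => f (Q'.pt j w)) z' →
        ContDiffAt ℝ k (fun w => f (Q.pt i w)) z) ∧ Q.vol i z = ‖S.det‖ ^ 2 * Q'.vol j z' ∧
      ∀ u : M → ℝ, ContDiffAt ℝ 2 (fun w => u (Q'.pt j w)) z' →
        Q.om u i z = pb S (Q'.om u j z') := by
  obtain ⟨T, g, hT, hg, rfl, he⟩ := h i j z hz z' hz' e
  have hTr : ∀ k : WithTop ℕ∞, ContDiffAt ℝ k T z := fun k =>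
    (hT.contDiffAt (n := k)).restrict_scalars ℝ
  have key : ∀ u : M → ℝ, ContDiffAt ℝ 2 (fun w => u (Q'.pt j w)) (T z) →
      Q.om u i z = pb (jm T z) (Q'.om u j (T z)) := by
    intro u hu
    have h1 : (fun w => Q.ρ i w + u (Q.pt i w)) =ᶠ[𝓝 z]
        fun w => Q'.ρ j (T w) + u (Q'.pt j (T w)) + (g w).re := by
      filter_upwards [he] with w hw
      rw [hw.2, hw.1]; ring
    have h2 : ContDiffAt ℝ 2 (fun w => (g w).re) z :=
      Complex.reCLM.contDiff.contDiffAt.comp z ((hg.contDiffAt (n := 2)).restrict_scalars ℝ)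
    have h3 : ContDiffAt ℝ 2 (fun w' => Q'.ρ j w' + u (Q'.pt j w')) (T z) := hρ.add hu
    have h4 := C2.cHess_add (u := fun w => Q'.ρ j (T w) + u (Q'.pt j (T w)))
      (h3.comp z (hTr 2)) h2
    rw [hess_re hg, add_zero] at h4
    have h5 := hess_comp hT h3
    have h6 := C2.cHess_congr h1
    rw [Pat.om, Pat.om, h6, h4, h5]
  refine ⟨jm T z, fun k f hf => ?_, ?_, key⟩
  · have h1 : ContDiffAt ℝ k (fun w => f (Q'.pt j (T w))) z :=
      ContDiffAt.comp (g := fun w => f (Q'.pt j w)) z hf (hTr k)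
    refine h1.congr_of_eventuallyEq ?_
    filter_upwards [he] with w hw
    rw [hw.1]
  · have := congrArg (fun X : Mx N => X.det.re) (key 0 contDiffAt_const)
    simp only [Pat.om, Pi.zero_apply, add_zero, det_pb] at this
    exact this

variable [TopologicalSpace M]

section ok
variable (h : Q.Ok)
include h

theorem map_pt (i) {z} (hz : z ∈ Q.U i) : Filter.map (Q.pt i) (𝓝 z) = 𝓝 (Q.pt i z) := by
  have h1 := (h.emb i).map_nhds_eq ⟨z, hz⟩
  rw [← (h.opn i).isOpenEmbedding_subtypeVal.map_nhds_eq ⟨z, hz⟩, Filter.map_map]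
  exact h1

theorem cont_pt (i) {z} (hz : z ∈ Q.U i) : ContinuousAt (Q.pt i) z := (map_pt h i hz).le

theorem inj (i) : InjOn (Q.pt i) (Q.U i) := fun x hx y hy e =>
  congrArg Subtype.val ((h.emb i).injective (a₁ := ⟨x, hx⟩) (a₂ := ⟨y, hy⟩) e)

theorem ρ2 (i) {z} (hz : z ∈ Q.U i) : ContDiffAt ℝ 2 (Q.ρ i) z := (h.ρ_sm i z hz).of_le two_le

theorem vol_pos (i) {z} (hz : z ∈ Q.U i) : 0 < Q.vol i z :=
  (Complex.lt_def.1 (h.ρ_pos i z hz).det_pos).1

omit h in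
theorem sm_det {f : Cm N → ℝ} {z : Cm N} (hf : ContDiffAt ℝ ∞ f z) :
    ContDiffAt ℝ ∞ (fun w => (cHess f w).det.re) z :=
  Complex.reCLM.contDiff.contDiffAt.comp z
    (C2.MC.det (A := cHess f) fun i j => C2.contDiffAt_cHess hf le_rfl i j)

theorem vol_sm (i) {z} (hz : z ∈ Q.U i) : ContDiffAt ℝ ∞ (Q.vol i) z := sm_det (h.ρ_sm i z hz)

theorem sm_of (f : M → ℝ) (i) {z} (hz : z ∈ Q.U i)
    (hf : ContDiffAt ℝ ∞ (fun w => f (Q.pt i w)) z) : Q.SmAt f (Q.pt i z) := fun j z' hz' e =>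
  (trf h.tr hz' hz e (ρ2 h i hz)).choose_spec.1 _ f hf

theorem cont {f : M → ℝ} {y} (hf : Q.SmAt f y) : ContinuousAt f y := by
  obtain ⟨i, z, hz, rfl⟩ := h.cover y
  rw [ContinuousAt, ← map_pt h i hz, tendsto_map'_iff]
  exact (hf i z hz rfl).continuousAt

theorem psd_of (u : M → ℝ) (i) {z} (hz : z ∈ Q.U i)
    (hu : ContDiffAt ℝ 2 (fun w => u (Q.pt i w)) z) (hp : (Q.om u i z).PosSemidef) :
    Q.PsdAt u (Q.pt i z) := fun j z' hz' e => by
  obtain ⟨S, -, -, h3⟩ := trf h.tr hz' hz e (ρ2 h i hz)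
  rw [h3 u hu]
  exact pb_psd S hp

omit h in
theorem quot_eq (h : Q.Ok) (ht : Q.Tr Q') {i j} {z z' : Cm N} (hz : z ∈ Q.U i) (hz' : z' ∈ Q'.U j)
    (e : Q.pt i z = Q'.pt j z') (hρ : ContDiffAt ℝ 2 (Q'.ρ j) z') {u : M → ℝ}
    (hu : ContDiffAt ℝ 2 (fun w => u (Q'.pt j w)) z') :
    (Q.om u i z).det.re / Q.vol i z = (Q'.om u j z').det.re / Q'.vol j z' := by
  obtain ⟨S, -, h2, h3⟩ := trf ht hz hz' e hρ
  have h4 := vol_pos h i hz
  rw [h2] at h4
  rw [h3 u hu, det_pb, h2, mul_div_mul_left _ _ (left_ne_zero_of_mul h4.ne')]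

theorem ma_pt (u : M → ℝ) (i) {z} (hz : z ∈ Q.U i)
    (hu : ContDiffAt ℝ 2 (fun w => u (Q.pt i w)) z) :
    Q.MA u (Q.pt i z) = (Q.om u i z).det.re / Q.vol i z := by
  have h1 : ∃ q : Q.ι × Cm N, q.2 ∈ Q.U q.1 ∧ Q.pt q.1 q.2 = Q.pt i z := ⟨(i, z), hz, rfl⟩
  rw [Pat.MA, dif_pos h1]
  exact quot_eq h h.tr h1.choose_spec.1 hz h1.choose_spec.2 (ρ2 h i hz) hu

theorem ma_congr {u v : M → ℝ} {c : ℝ} {y} (e : ∀ᶠ x in 𝓝 y, u x = v x + c) :
    Q.MA u y = Q.MA v y := by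
  unfold Pat.MA
  split_ifs with h1
  · obtain ⟨h2, h3⟩ := h1.choose_spec
    congr 3
    refine (C2.cHess_congr ?_).trans (cHess_add_const _ c _)
    rw [← h3] at e
    filter_upwards [(cont_pt h _ h2).eventually e] with w hw
    rw [hw, add_assoc]
  · rfl

theorem sm_congr {f g : M → ℝ} {y} (e : f =ᶠ[𝓝 y] g) (hg : Q.SmAt g y) : Q.SmAt f y :=
  fun i z hz e' => (hg i z hz e').congr_of_eventuallyEq
    ((cont_pt h i hz).eventually (e' ▸ e :))

theorem ma_sm {u : M → ℝ} {y} (hu : ∀ᶠ x in 𝓝 y, Q.SmAt u x) : Q.SmAt (Q.MA u) y := by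
  rintro i z hz rfl
  refine ((sm_det ((h.ρ_sm i z hz).add (hu.self_of_nhds i z hz rfl))).div (vol_sm h i hz)
    (vol_pos h i hz).ne').congr_of_eventuallyEq ?_
  filter_upwards [(cont_pt h i hz).eventually hu, (h.opn i).mem_nhds hz] with w h1 h2
  exact ma_pt h u i h2 ((h1 i w h2 rfl).of_le two_le)

theorem tch {u ψ : M → ℝ} {b : ℝ} {y} (hu : Q.SmAt u y) (hp : Q.PsdAt u y) (e : u y = ψ y)
    (hl : ∀ᶠ x in 𝓝 y, u x ≤ ψ x) (hb : b ≤ Q.MA u y) : Q.Tch ψ b y := by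
  obtain ⟨i, z, hz, rfl⟩ := h.cover y
  have h2 := (hu i z hz rfl).of_le two_le
  rw [ma_pt h u i hz h2, le_div_iff₀ (vol_pos h i hz)] at hb
  exact ⟨i, z, hz, rfl, _, h2, e, (cont_pt h i hz).eventually hl, hp i z hz rfl, hb⟩

theorem om_cvx {u v : M → ℝ} (t : ℝ) {i z} (hz : z ∈ Q.U i)
    (hu : ContDiffAt ℝ 2 (fun w => u (Q.pt i w)) z)
    (hv : ContDiffAt ℝ 2 (fun w => v (Q.pt i w)) z) :
    Q.om (fun x => (1 - t) * u x + t * v x) i z =
      ((1 - t : ℝ) : ℂ) • Q.om u i z + (t : ℂ) • Q.om v i z := by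
  have h1 := (ρ2 h i hz).add hu
  have h2 := (ρ2 h i hz).add hv
  rw [Pat.om, Pat.om, Pat.om, ← C2.cHess_const_mul _ h1, ← C2.cHess_const_mul _ h2,
    ← C2.cHess_add (contDiffAt_const.mul h1) (contDiffAt_const.mul h2)]
  congr 1
  funext w
  ring

theorem ma_cvx {u v : M → ℝ} {t : ℝ} {y} (h0 : 0 ≤ t) (h1 : t ≤ 1) (hu : Q.SmAt u y)
    (hv : Q.SmAt v y) (pu : Q.PsdAt u y) (pv : Q.PsdAt v y) :
    Q.PsdAt (fun x => (1 - t) * u x + t * v x) y ∧
      (1 - t) ^ N * Q.MA u y ≤ Q.MA (fun x => (1 - t) * u x + t * v x) y ∧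
      t ^ N * Q.MA v y ≤ Q.MA (fun x => (1 - t) * u x + t * v x) y ∧
      (0 < Q.MA u y →
        Q.MA u y ^ (1 - t) * Q.MA v y ^ t ≤ Q.MA (fun x => (1 - t) * u x + t * v x) y) := by
  obtain ⟨i, z, hz, rfl⟩ := h.cover y
  have hu2 := (hu i z hz rfl).of_le two_le
  have hv2 := (hv i z hz rfl).of_le two_le
  have hw : ContDiffAt ℝ 2 (fun w => (1 - t) * u (Q.pt i w) + t * v (Q.pt i w)) z :=
    (contDiffAt_const.mul hu2).add (contDiffAt_const.mul hv2)
  have a1 := psd_smul (pu i z hz rfl) (sub_nonneg.2 h1)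
  have a2 := psd_smul (pv i z hz rfl) h0
  have hV := vol_pos h i hz
  rw [ma_pt h u i hz hu2, ma_pt h v i hz hv2, ma_pt h _ i hz hw, om_cvx h t hz hu2 hv2]
  refine ⟨psd_of h _ i hz hw (by rw [om_cvx h t hz hu2 hv2]; exact a1.add a2), ?_, ?_,
    fun hp => ?_⟩
  · rw [← mul_div_assoc, ← det_smul]
    exact div_le_div_of_nonneg_right (det_mono a1 (by simpa using a2)) hV.le
  · rw [← mul_div_assoc, ← det_smul]
    exact div_le_div_of_nonneg_right (det_mono a2 (by simpa using a1)) hV.le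
  · have hp' := (div_pos_iff_of_pos_right hV).1 hp
    rw [Real.div_rpow hp'.le hV.le, Real.div_rpow (det_nonneg (pv i z hz rfl)) hV.le,
      div_mul_div_comm, ← Real.rpow_add hV, sub_add_cancel, Real.rpow_one]
    exact div_le_div_of_nonneg_right (det_cvx (pu i z hz rfl) (pv i z hz rfl) hp' h0 h1) hV.le

theorem vc₀ (D : Set M) (a ψ : M → ℝ) (hD : IsOpen D) (ha : ∀ y ∈ D, Q.SmAt a y)
    (hu : UpperSemicontinuousOn (fun y => ψ y - a y) (closure D))
    (hf : ∀ y ∈ frontier D, ψ y ≤ a y)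
    (hK : ∀ ε > (0 : ℝ), ∃ K, IsCompact K ∧ ∀ y ∈ D \ K, ψ y ≤ a y + ε)
    (ht : ∀ y ∈ D, a y < ψ y → ∃ b, Q.MA a y < b ∧ Q.Tch ψ b y) : ∀ y ∈ D, ψ y ≤ a y := by
  intro y₀ hy₀
  by_contra hlt
  push Not at hlt
  obtain ⟨K, hKc, hK⟩ := hK ((ψ y₀ - a y₀) / 2) (by linarith)
  have hin : y₀ ∈ K := by
    by_contra hn
    have := hK y₀ ⟨hy₀, hn⟩
    linarith
  obtain ⟨y, ⟨hy1, hy2⟩, hm⟩ := UpperSemicontinuousOn.exists_isMaxOn (s := K ∩ closure D)
    ⟨y₀, hin, subset_closure hy₀⟩ (hKc.inter_right isClosed_closure) (hu.mono inter_subset_right)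
  have h0 : ψ y₀ - a y₀ ≤ ψ y - a y := hm ⟨hin, subset_closure hy₀⟩
  have hyD : y ∈ D := by
    by_contra hn
    have := hf y ⟨hy2, by rwa [hD.interior_eq]⟩
    linarith
  have hmax : ∀ x ∈ D, ψ x - a x ≤ ψ y - a y := fun x hx => by
    by_cases hxK : x ∈ K
    · exact hm ⟨hxK, subset_closure hx⟩
    · have := hK x ⟨hx, hxK⟩
      linarith
  obtain ⟨b, hb, i, z, hz, rfl, u, u2, u0, ul, up, ub⟩ := ht y hyD (by linarith)
  have a2 := (ha _ hyD i z hz rfl).of_le two_le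
  have hloc : IsLocalMax (fun w => u w - a (Q.pt i w)) z := by
    filter_upwards [ul, (cont_pt h i hz).eventually (hD.mem_nhds hyD)] with w h1 h2
    have := hmax _ h2
    linarith
  have h3 := P272.K.N.neg_cHess_posSemidef (u2.sub a2) hloc
  rw [ma_pt h a i hz a2, div_lt_iff₀ (vol_pos h i hz)] at hb
  refine absurd (ub.trans (det_mono up ?_)) (not_le.2 hb)
  rw [Pat.om, C2.cHess_add (ρ2 h i hz) a2, C2.cHess_add (ρ2 h i hz) u2]
  rw [C2.cHess_sub u2 a2] at h3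
  simpa using h3

end ok

end PGa

end Vale.Agent.P284Y
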